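import Mathlib

/-!
P022-L3, row [C-TW], first part: the module `P_w` of the polynomials of degree at most `w` with
the right action of the integral matrices, `(p | A)(τ) = ∑ p_j (a τ + b)^j (c τ + d)^(w - j)`.
-/

open Polynomial

namespace Vale.Agent.P022.H420.L3

/-- integral two by two matrices -/
abbrev M2 := Matrix (Fin 2) (Fin 2) ℤ

/-- polynomials of degree at most `w`: `p j` is the coefficient of `τ ^ j` -/
abbrev Pw (w : ℕ) (R : Type*) := Fin (w + 1) → R

/-- the polynomial `(a X + b)^j (c X + d)^(w-j)` -/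
noncomputable def mon (w : ℕ) (A : M2) (j : ℕ) : ℤ[X] :=
  (C (A 0 0) * X + C (A 0 1)) ^ j * (C (A 1 0) * X + C (A 1 1)) ^ (w - j)

/-- the matrix of the action -/
noncomputable def cf (w : ℕ) (A : M2) (j i : ℕ) : ℤ := (mon w A j).coeff i

section hom

variable {S : Type*} [CommRing S]

/-- the value of the form of degree `w` attached to a polynomial -/
noncomputable def hm (w : ℕ) (f : ℤ[X]) (x y : S) : S :=
  ∑ k ∈ Finset.range (w + 1), (f.coeff k : S) * (x ^ k * y ^ (w - k))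

theorem hm_lin_mul (w : ℕ) (f : ℤ[X]) (hf : f.natDegree ≤ w) (a b : ℤ) (x y : S) :
    hm (w + 1) ((C a * X + C b) * f) x y = ((a : S) * x + b * y) * hm w f x y := by
  have h1 : hm (w + 1) (C a * X * f) x y = (a : S) * x * hm w f x y := by
    rw [hm, hm, Finset.sum_range_succ', mul_assoc (C a), Finset.mul_sum]
    simp only [coeff_C_mul, coeff_X_mul, mul_coeff_zero, coeff_X_zero, zero_mul, mul_zero,
      Int.cast_zero, add_zero]
    refine Finset.sum_congr rfl fun k hk => ?_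
    have : w + 1 - (k + 1) = w - k := by omega
    rw [this]
    push_cast
    ring
  have h2 : hm (w + 1) (C b * f) x y = (b : S) * y * hm w f x y := by
    rw [hm, hm, Finset.sum_range_succ, Finset.mul_sum]
    have h0 : f.coeff (w + 1) = 0 := coeff_eq_zero_of_natDegree_lt (by omega)
    simp only [coeff_C_mul, h0, mul_zero, Int.cast_zero, zero_mul, add_zero]
    refine Finset.sum_congr rfl fun k hk => ?_
    have hk' := Finset.mem_range.1 hk
    have : w + 1 - k = (w - k) + 1 := by omega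
    rw [this, pow_succ]
    push_cast
    ring
  have h3 : hm (w + 1) ((C a * X + C b) * f) x y =
      hm (w + 1) (C a * X * f) x y + hm (w + 1) (C b * f) x y := by
    rw [hm, hm, hm, ← Finset.sum_add_distrib]
    refine Finset.sum_congr rfl fun k _ => ?_
    rw [add_mul (C a * X), coeff_add]
    push_cast
    ring
  rw [h3, h1, h2]
  ring

theorem natDegree_lin (a b : ℤ) : (C a * X + C b : ℤ[X]).natDegree ≤ 1 := natDegree_linear_le

theorem natDegree_lin_pow (a b : ℤ) (j : ℕ) : ((C a * X + C b : ℤ[X]) ^ j).natDegree ≤ j :=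
  natDegree_pow_le_of_le j (natDegree_lin a b) |>.trans (by simp)

theorem hm_lin_pow (w : ℕ) (f : ℤ[X]) (hf : f.natDegree ≤ w) (a b : ℤ) (x y : S) (j : ℕ) :
    hm (w + j) ((C a * X + C b) ^ j * f) x y = ((a : S) * x + b * y) ^ j * hm w f x y := by
  induction j with
  | zero => simp
  | succ j ih =>
    rw [pow_succ', mul_assoc, ← add_assoc, hm_lin_mul, ih, pow_succ', mul_assoc]
    refine natDegree_mul_le.trans ?_
    have := natDegree_lin_pow a b j
    omega

theorem hm_mon (w : ℕ) (A : M2) (j : ℕ) (hj : j ≤ w) (x y : S) :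
    hm w (mon w A j) x y =
      ((A 0 0 : S) * x + A 0 1 * y) ^ j * ((A 1 0 : S) * x + A 1 1 * y) ^ (w - j) := by
  have h1 := hm_lin_pow (S := S) (w - j) ((C (A 1 0) * X + C (A 1 1)) ^ (w - j))
    (natDegree_lin_pow _ _ _) (A 0 0) (A 0 1) x y j
  rw [Nat.sub_add_cancel hj] at h1
  rw [mon, h1]
  congr 1
  have h2 := hm_lin_pow (S := S) 0 1 (by simp) (A 1 0) (A 1 1) x y (w - j)
  rw [zero_add, mul_one] at h2
  rw [h2]
  simp [hm]

/-- homogenization -/
theorem sum_cf (w : ℕ) (A : M2) (j : Fin (w + 1)) (x y : S) :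
    ∑ k : Fin (w + 1), (cf w A j k : S) * (x ^ (k : ℕ) * y ^ (w - (k : ℕ))) =
      ((A 0 0 : S) * x + A 0 1 * y) ^ (j : ℕ) *
        ((A 1 0 : S) * x + A 1 1 * y) ^ (w - (j : ℕ)) := by
  rw [← hm_mon w A j (Nat.lt_succ_iff.1 j.2) x y, hm, ← Fin.sum_univ_eq_sum_range
    (fun k => ((mon w A j).coeff k : S) * (x ^ k * y ^ (w - k)))]
  rfl

end hom

/-- the law of composition -/
theorem cf_mul (w : ℕ) (A B : M2) (j i : Fin (w + 1)) :
    cf w (A * B) j i = ∑ k : Fin (w + 1), cf w A j k * cf w B k i := by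
  have h1 : mon w (A * B) j = ∑ k : Fin (w + 1), C (cf w A j k) * mon w B k := by
    have h2 := sum_cf (S := ℤ[X]) w A j (C (B 0 0) * X + C (B 0 1)) (C (B 1 0) * X + C (B 1 1))
    have h3 : (∑ k : Fin (w + 1), C (cf w A j k) * mon w B k) =
        ∑ k : Fin (w + 1), ((cf w A j k : ℤ) : ℤ[X]) * ((C (B 0 0) * X + C (B 0 1)) ^ (k : ℕ) *
          (C (B 1 0) * X + C (B 1 1)) ^ (w - (k : ℕ))) := by
      refine Finset.sum_congr rfl fun k _ => ?_
      rw [mon, ← C_eq_intCast, Int.cast_id]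
    rw [h3, h2, mon]
    have e0 : (C ((A * B) 0 0) * X + C ((A * B) 0 1) : ℤ[X]) =
        ((A 0 0 : ℤ) : ℤ[X]) * (C (B 0 0) * X + C (B 0 1)) +
          ((A 0 1 : ℤ) : ℤ[X]) * (C (B 1 0) * X + C (B 1 1)) := by
      rw [← C_eq_intCast, ← C_eq_intCast, Int.cast_id, Int.cast_id]
      simp only [Matrix.mul_apply, Fin.sum_univ_two, C_add, C_mul]
      ring
    have e1 : (C ((A * B) 1 0) * X + C ((A * B) 1 1) : ℤ[X]) =
        ((A 1 0 : ℤ) : ℤ[X]) * (C (B 0 0) * X + C (B 0 1)) +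
          ((A 1 1 : ℤ) : ℤ[X]) * (C (B 1 0) * X + C (B 1 1)) := by
      rw [← C_eq_intCast, ← C_eq_intCast, Int.cast_id, Int.cast_id]
      simp only [Matrix.mul_apply, Fin.sum_univ_two, C_add, C_mul]
      ring
    rw [e0, e1]
  rw [cf, h1, finsetSum_coeff]
  refine Finset.sum_congr rfl fun k _ => ?_
  rw [coeff_C_mul, cf, cf]

/-- modulo `m` only the diagonal entries matter -/
theorem cf_diag (w : ℕ) (A : M2) (m : ℕ) (a d : ℤ) (h01 : (m : ℤ) ∣ A 0 1) (h10 : (m : ℤ) ∣ A 1 0)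
    (h00 : (m : ℤ) ∣ A 0 0 - a) (h11 : (m : ℤ) ∣ A 1 1 - d) (j i : Fin (w + 1)) :
    (cf w A j i : ZMod m) = if i = j then (a : ZMod m) ^ (j : ℕ) * (d : ZMod m) ^ (w - (j : ℕ))
      else 0 := by
  have k01 : ((A 0 1 : ℤ) : ZMod m) = 0 := (ZMod.intCast_zmod_eq_zero_iff_dvd _ _).2 h01
  have k10 : ((A 1 0 : ℤ) : ZMod m) = 0 := (ZMod.intCast_zmod_eq_zero_iff_dvd _ _).2 h10
  have k00 : ((A 0 0 : ℤ) : ZMod m) = a := by
    have := (ZMod.intCast_zmod_eq_zero_iff_dvd _ _).2 h00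
    push_cast at this
    exact sub_eq_zero.1 this
  have k11 : ((A 1 1 : ℤ) : ZMod m) = d := by
    have := (ZMod.intCast_zmod_eq_zero_iff_dvd _ _).2 h11
    push_cast at this
    exact sub_eq_zero.1 this
  have h1 : (mon w A j).map (Int.castRingHom (ZMod m)) =
      C ((a : ZMod m) ^ (j : ℕ) * (d : ZMod m) ^ (w - (j : ℕ))) * X ^ (j : ℕ) := by
    rw [mon]
    simp only [Polynomial.map_mul, Polynomial.map_pow, Polynomial.map_add, map_C, map_X,
      Int.coe_castRingHom, k01, k10, k00, k11, C_0, add_zero, zero_mul, zero_add, mul_pow, C_mul,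
      C_pow]
    ring
  have h2 : (cf w A j i : ZMod m) = ((mon w A j).map (Int.castRingHom (ZMod m))).coeff i := by
    rw [coeff_map]; rfl
  rw [h2, h1, coeff_C_mul, coeff_X_pow]
  by_cases h : i = j
  · subst h; simp
  · rw [if_neg h, if_neg (fun h' => h (Fin.ext h')), mul_zero]

theorem cf_diag' (w : ℕ) (a d : ℤ) (j i : Fin (w + 1)) :
    cf w !![a, 0; 0, d] j i = if i = j then a ^ (j : ℕ) * d ^ (w - (j : ℕ)) else 0 := by
  rw [cf, mon]
  have : (C ((!![a, 0; 0, d] : M2) 0 0) * X + C ((!![a, 0; 0, d] : M2) 0 1)) ^ (j : ℕ) *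
      (C ((!![a, 0; 0, d] : M2) 1 0) * X + C ((!![a, 0; 0, d] : M2) 1 1)) ^ (w - (j : ℕ)) =
      C (a ^ (j : ℕ) * d ^ (w - (j : ℕ))) * X ^ (j : ℕ) := by
    simp [mul_pow]
    ring
  rw [this, coeff_C_mul, coeff_X_pow]
  by_cases h : i = j
  · subst h; simp
  · rw [if_neg h, if_neg (fun h' => h (Fin.ext h')), mul_zero]

section action

variable {R : Type*} [AddCommGroup R]

/-- the right action of the integral matrices -/
noncomputable def act (w : ℕ) (A : M2) : Pw w R →+ Pw w R where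
  toFun p i := ∑ j : Fin (w + 1), cf w A j i • p j
  map_zero' := by ext i; simp
  map_add' p q := by
    ext i
    simp only [Pi.add_apply, smul_add, Finset.sum_add_distrib]

theorem act_apply (w : ℕ) (A : M2) (p : Pw w R) (i : Fin (w + 1)) :
    act w A p i = ∑ j : Fin (w + 1), cf w A j i • p j := rfl

theorem act_mul (w : ℕ) (A B : M2) (p : Pw w R) : act w (A * B) p = act w B (act w A p) := by
  ext i
  simp only [act_apply]
  have h1 : ∀ j : Fin (w + 1), cf w (A * B) j i • p j =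
      ∑ k : Fin (w + 1), (cf w B k i * cf w A j k) • p j := by
    intro j
    rw [cf_mul, Finset.sum_smul]
    exact Finset.sum_congr rfl fun k _ => by rw [mul_comm]
  simp only [h1, Finset.smul_sum, smul_smul]
  exact Finset.sum_comm

theorem act_diag' (w : ℕ) (a d : ℤ) (p : Pw w R) (i : Fin (w + 1)) :
    act w !![a, 0; 0, d] p i = (a ^ (i : ℕ) * d ^ (w - (i : ℕ))) • p i := by
  rw [act_apply, Finset.sum_eq_single i]
  · rw [cf_diag', if_pos rfl]
  · intro j _ hj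
    rw [cf_diag', if_neg (Ne.symm hj), zero_smul]
  · simp

theorem act_one (w : ℕ) (p : Pw w R) : act w 1 p = p := by
  ext i
  have : (1 : M2) = !![1, 0; 0, 1] := Matrix.one_fin_two
  rw [this, act_diag', one_pow, one_pow, one_mul, one_smul]

theorem act_neg_one (w : ℕ) (p : Pw w R) : act w (-1) p = (-1 : ℤ) ^ w • p := by
  ext i
  have : (-1 : M2) = !![-1, 0; 0, -1] := by
    rw [Matrix.one_fin_two]
    ext a b
    fin_cases a <;> fin_cases b <;> simp
  rw [this, act_diag', ← pow_add, Pi.smul_apply,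
    Nat.add_sub_cancel' (Nat.lt_succ_iff.1 i.2)]

/-- compatible with homomorphisms of the coefficients -/
theorem act_map {R' : Type*} [AddCommGroup R'] (f : R →+ R') (w : ℕ) (A : M2) (p : Pw w R)
    (i : Fin (w + 1)) : act w A (fun j => f (p j)) i = f (act w A p i) := by
  rw [act_apply, act_apply, map_sum]
  exact Finset.sum_congr rfl fun j _ => (map_zsmul f _ _).symm

end action

/-- the action modulo `m` of a matrix which is diagonal modulo `m` -/
theorem act_diag (w : ℕ) (A : M2) (m : ℕ) (a d : ℤ) (h01 : (m : ℤ) ∣ A 0 1)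
    (h10 : (m : ℤ) ∣ A 1 0) (h00 : (m : ℤ) ∣ A 0 0 - a) (h11 : (m : ℤ) ∣ A 1 1 - d)
    (p : Pw w ℤ) (i : Fin (w + 1)) :
    ((act w A p i : ℤ) : ZMod m) = (a : ZMod m) ^ (i : ℕ) * (d : ZMod m) ^ (w - (i : ℕ)) * p i := by
  rw [act_apply, Int.cast_sum, Finset.sum_eq_single i]
  · rw [smul_eq_mul, Int.cast_mul, cf_diag w A m a d h01 h10 h00 h11, if_pos rfl]
  · intro j _ hj
    rw [smul_eq_mul, Int.cast_mul, cf_diag w A m a d h01 h10 h00 h11, if_neg (Ne.symm hj), zero_mul]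
  · simp

theorem act_one_mod (w : ℕ) (A : M2) (m : ℕ) (h01 : (m : ℤ) ∣ A 0 1)
    (h10 : (m : ℤ) ∣ A 1 0) (h00 : (m : ℤ) ∣ A 0 0 - 1) (h11 : (m : ℤ) ∣ A 1 1 - 1)
    (p : Pw w ℤ) (i : Fin (w + 1)) : ((act w A p i : ℤ) : ZMod m) = p i := by
  rw [act_diag w A m 1 1 h01 h10 h00 h11]
  simp

/-- the polynomial function -/
noncomputable def evP (w : ℕ) (p : Pw w ℂ) (τ : ℂ) : ℂ := ∑ j : Fin (w + 1), p j * τ ^ (j : ℕ)

theorem evP_act (w : ℕ) (A : M2) (p : Pw w ℂ) (τ : ℂ) (h : (A 1 0 : ℂ) * τ + A 1 1 ≠ 0) :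
    evP w (act w A p) τ = ((A 1 0 : ℂ) * τ + A 1 1) ^ w *
      evP w p (((A 0 0 : ℂ) * τ + A 0 1) / ((A 1 0 : ℂ) * τ + A 1 1)) := by
  have h1 : evP w (act w A p) τ = ∑ j : Fin (w + 1), p j *
      ∑ k : Fin (w + 1), (cf w A j k : ℂ) * (τ ^ (k : ℕ) * 1 ^ (w - (k : ℕ))) := by
    rw [evP]
    simp only [act_apply, Finset.sum_mul, Finset.mul_sum, zsmul_eq_mul, one_pow, mul_one]
    rw [Finset.sum_comm]
    refine Finset.sum_congr rfl fun j _ => Finset.sum_congr rfl fun k _ => ?_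
    ring
  rw [h1, evP, Finset.mul_sum]
  refine Finset.sum_congr rfl fun j _ => ?_
  rw [sum_cf, mul_one, mul_one, div_pow]
  have hj : (j : ℕ) ≤ w := Nat.lt_succ_iff.1 j.2
  have h2 : ((A 1 0 : ℂ) * τ + A 1 1) ^ w = ((A 1 0 : ℂ) * τ + A 1 1) ^ (w - (j : ℕ)) *
      ((A 1 0 : ℂ) * τ + A 1 1) ^ (j : ℕ) := by rw [← pow_add, Nat.sub_add_cancel hj]
  rw [h2]
  have h3 : ((A 1 0 : ℂ) * τ + A 1 1) ^ (j : ℕ) ≠ 0 := pow_ne_zero _ h
  rw [show ∀ x y z t v : ℂ, x * y * (z * (t / v)) = z * (t * x) * (y / v) from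
    fun x y z t v => by ring, div_self h3, mul_one]

end Vale.Agent.P022.H420.L3
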