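import Vale.Agent.P022.H420.L3.Res
import Vale.Agent.P022.H161.COp
import Vale.Agent.P022.H724.L3.FamDef
import Vale.Agent.P022.H472.Lit

/-!
P022-L3, chapter C, row [C-TW], part 3: the restrictions lie in helper724's submodule `Wf`, and
the words in the operators.
-/

open scoped MatrixGroups
open CongruenceSubgroup

noncomputable section

namespace Vale.Agent.P022.H420.L3

open Vale.Agent.P022 Vale.Agent.P022.L3 Vale.Agent.P022.H527.L3 Vale.Agent.P022.H724.L3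
open Vale.Agent.P022.H161.CLat Vale.Agent.P022.H161.COp

variable {w M n : ℕ} {u : Gamma1 3 → Pw w ℤ}

/-- conjugation by a matrix which normalises -/
theorem inP_conj {M : ℕ} {a d : ℤ} {η γ : SL(2, ℤ)} (hη : Cls M a d (η : M2))
    (ha : IsCoprime ((3 * 2 ^ M : ℕ) : ℤ) a) (hd : IsCoprime ((3 * 2 ^ M : ℕ) : ℤ) d)
    (hγ : InP M γ) : InP M (η * γ * η⁻¹) := by
  have hc : Cls M a d ((η : M2) * (γ : M2)) := by
    have := hη.mul hγ.cls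
    rwa [mul_one, mul_one] at this
  exact hc.cancel (ω := ((η * γ * η⁻¹ : SL(2, ℤ)) : M2)) hη ha hd
    (by rw [← coe_mul, ← coe_mul, inv_mul_cancel_right])

theorem inv_entries (δ : SL(2, ℤ)) : (δ⁻¹) 0 0 = δ 1 1 ∧ (δ⁻¹) 0 1 = -(δ 0 1) ∧
    (δ⁻¹) 1 0 = -(δ 1 0) ∧ (δ⁻¹) 1 1 = δ 0 0 := by
  have h : ((δ⁻¹ : SL(2, ℤ)) : M2) = !![δ 1 1, -(δ 0 1); -(δ 1 0), δ 0 0] := by
    rw [Matrix.SpecialLinearGroup.coe_inv, Matrix.adjugate_fin_two]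
  refine ⟨?_, ?_, ?_, ?_⟩
  · exact congrFun (congrFun h 0) 0
  · exact congrFun (congrFun h 0) 1
  · exact congrFun (congrFun h 1) 0
  · exact congrFun (congrFun h 1) 1

/-- conjugation by an element of `Γ₁(3)`, diagonal modulo `2^M` -/
theorem resF_conj (hn : n ≤ M) (hu : IsC w u) {η γ : SL(2, ℤ)} (hη : η ∈ Gamma1 3)
    (h01 : ((2 ^ M : ℕ) : ℤ) ∣ η 0 1) (h10 : ((2 ^ M : ℕ) : ℤ) ∣ η 1 0)
    (hγ : InP M γ) (hc : InP M (η * γ * η⁻¹)) (j : Fin (w + 1)) :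
    resF M n u j (η * γ * η⁻¹) = ((η 1 1 : ℤ) : ZMod (2 ^ n)) ^ (j : ℕ) *
      ((η 0 0 : ℤ) : ZMod (2 ^ n)) ^ (w - (j : ℕ)) * resF M n u j γ := by
  have hηi : η⁻¹ ∈ Gamma1 3 := (Gamma1 3).inv_mem hη
  have hdv : ((2 ^ n : ℕ) : ℤ) ∣ ((2 ^ M : ℕ) : ℤ) := by exact_mod_cast pow_dvd_pow 2 hn
  obtain ⟨e00, e01, e10, e11⟩ := inv_entries η
  have hA : ∀ (p : Pw w ℤ) (i : Fin (w + 1)), ((act w ((η⁻¹ : SL(2, ℤ)) : M2) p i : ℤ) :
      ZMod (2 ^ n)) = ((η 1 1 : ℤ) : ZMod (2 ^ n)) ^ (i : ℕ) *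
      ((η 0 0 : ℤ) : ZMod (2 ^ n)) ^ (w - (i : ℕ)) * p i := by
    intro p i
    apply act_diag
    · rw [e01]; exact (hdv.trans h01).neg_right
    · rw [e10]; exact (hdv.trans h10).neg_right
    · rw [e00, sub_self]; exact dvd_zero _
    · rw [e11, sub_self]; exact dvd_zero _
  have h0 : act w ((η⁻¹ : SL(2, ℤ)) : M2) (ex u η) + ex u η⁻¹ = 0 := by
    rw [← hu.ex hη hηi, mul_inv_cancel, ex_mem u (Gamma1 3).one_mem]
    exact hu.one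
  rw [resF_pos hc, resF_pos hγ, hu.ex ((Gamma1 3).mul_mem hη hγ.mem) hηi, hu.ex hη hγ.mem,
    Pi.add_apply, Int.cast_add, hA, Pi.add_apply, Int.cast_add, act_inP hn hγ]
  have h1 := congrArg (fun p : Pw w ℤ => ((p j : ℤ) : ZMod (2 ^ n))) h0
  simp only [Pi.add_apply, Int.cast_add, Pi.zero_apply, Int.cast_zero] at h1
  rw [hA] at h1
  linear_combination h1

theorem inG_conj {a : ℤ} {δ γ : SL(2, ℤ)} (hδ : IsDel 3 M a δ) :
    InG 3 M (δ * γ * δ⁻¹) ↔ InG 3 M γ := by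
  have fwd : ∀ γ : SL(2, ℤ), InP M γ → InP M (δ * γ * δ⁻¹) := fun γ h =>
    inP_conj (cls_del hδ) (cop_del hδ).1 (cop_del hδ).2 h
  obtain ⟨e00, e01, e10, e11⟩ := inv_entries δ
  have hi : Cls M a (δ 0 0) ((δ⁻¹ : SL(2, ℤ)) : M2) := by
    refine ⟨?_, ?_, ?_, ?_⟩
    · rw [e10]; exact hδ.1.neg_right
    · rw [e01]; exact hδ.2.1.neg_right
    · rw [e00]; exact hδ.2.2
    · rw [e11, sub_self]; exact dvd_zero _
  have bwd : ∀ γ : SL(2, ℤ), InP M (δ * γ * δ⁻¹) → InP M γ := fun γ h => by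
    have := inP_conj hi (cop_del hδ).2 (cop_del hδ).1 h
    rw [inv_inv] at this
    rwa [show δ⁻¹ * (δ * γ * δ⁻¹) * δ = γ by group] at this
  have hneg : -(δ * γ * δ⁻¹) = δ * (-γ) * δ⁻¹ := by rw [mul_neg, neg_mul]
  rw [inG_iff, inG_iff, hneg]
  exact ⟨fun h => h.imp (bwd γ) (bwd (-γ)), fun h => h.imp (fwd γ) (fwd (-γ))⟩

/-- **the restrictions lie in `Wf`** -/
theorem res_mem_Wf (hw : Odd w) (hn : n ≤ M) (hu : IsC w u) (j : Fin (w + 1)) :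
    res hn hu j ∈ Wf M n w (w - (j : ℕ)) := by
  rw [mem_Wf]
  intro b hb δ hδ γ
  change _ * resF M n u j (δ * γ * δ⁻¹) = _ * resF M n u j γ
  have hj : (j : ℕ) ≤ w := Nat.lt_succ_iff.1 j.2
  have hdv : ((2 ^ n : ℕ) : ℤ) ∣ ((2 ^ M : ℕ) : ℤ) := by exact_mod_cast pow_dvd_pow 2 hn
  have hb0 : ((b : ℤ) : ZMod (2 ^ n)) * ((δ 0 0 : ℤ) : ZMod (2 ^ n)) = 1 := by
    have := (cast_iff (2 ^ n) _ _).2 ((hdv.trans (dvd3 M)).trans (del_cls hδ))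
    rwa [Int.cast_mul, Int.cast_one] at this
  have hb1 : ((δ 1 1 : ℤ) : ZMod (2 ^ n)) = b :=
    (cast_iff (2 ^ n) _ _).2 ((hdv.trans (dvd3 M)).trans hδ.2.2)
  have h3 : ((3 : ℕ) : ℤ) ∣ ((3 * 2 ^ M : ℕ) : ℤ) := by exact_mod_cast Dvd.intro _ rfl
  have h310 : ((3 : ℕ) : ℤ) ∣ δ 1 0 := h3.trans hδ.1
  have h311 : ((3 : ℕ) : ℤ) ∣ δ 1 1 - b := h3.trans hδ.2.2
  have hcop : ¬ (3 : ℤ) ∣ b := by
    intro h
    have h1 := hb.of_isCoprime_of_dvd_left h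
    have h2 : IsUnit (3 : ℤ) := h1.isUnit_of_dvd' dvd_rfl (by norm_num)
    rw [Int.isUnit_iff] at h2
    omega
  -- the main identity on the positive part
  have main : ∀ γ : SL(2, ℤ), InP M γ → ((b ^ (2 * (w - (j : ℕ))) : ℤ) : ZMod (2 ^ n)) *
      resF M n u j (δ * γ * δ⁻¹) = ((eps b * b ^ w : ℤ) : ZMod (2 ^ n)) * resF M n u j γ := by
    intro γ hγ
    have hcj : InP M (δ * γ * δ⁻¹) := inP_conj (cls_del hδ) (cop_del hδ).1 (cop_del hδ).2 hγ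
    have pw : ((b : ℤ) : ZMod (2 ^ n)) ^ (2 * (w - (j : ℕ))) *
        (((b : ℤ) : ZMod (2 ^ n)) ^ (j : ℕ) * ((δ 0 0 : ℤ) : ZMod (2 ^ n)) ^ (w - (j : ℕ))) =
        ((b : ℤ) : ZMod (2 ^ n)) ^ w := by
      calc _ = ((b : ZMod (2 ^ n)) ^ (w - (j : ℕ)) * (b : ZMod (2 ^ n)) ^ (j : ℕ)) *
            ((b : ZMod (2 ^ n)) * ((δ 0 0 : ℤ) : ZMod (2 ^ n))) ^ (w - (j : ℕ)) := by
              rw [two_mul, pow_add, mul_pow]; ring
        _ = _ := by rw [hb0, one_pow, mul_one, ← pow_add, Nat.sub_add_cancel hj]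
    by_cases h1 : b % 3 = 1
    · have he : eps b = 1 := by rw [eps, if_pos h1]
      have hδm : δ ∈ Gamma1 3 := by
        rw [← inP_zero]
        refine ⟨?_, by simp, ?_⟩
        · simpa using h310
        · push_cast at h311 ⊢
          omega
      rw [resF_conj hn hu hδm hδ.2.1 ((dvd3 M).trans hδ.1) hγ hcj, hb1, he]
      push_cast
      rw [one_mul, ← pw]
      ring
    · have he : eps b = -1 := by rw [eps, if_neg h1]
      have hδm : -δ ∈ Gamma1 3 := by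
        rw [← inP_zero]
        refine ⟨?_, by simp, ?_⟩
        · rw [coe_neg]
          simpa using h310
        · rw [coe_neg]
          push_cast at h311 ⊢
          omega
      have hcc : -δ * γ * (-δ)⁻¹ = δ * γ * δ⁻¹ := by
        rw [inv_neg, neg_mul, neg_mul_neg]
      have hcj' : InP M (-δ * γ * (-δ)⁻¹) := by rw [hcc]; exact hcj
      have := resF_conj hn hu hδm (by rw [coe_neg]; exact hδ.2.1.neg_right)
        (by rw [coe_neg]; exact ((dvd3 M).trans hδ.1).neg_right) hγ hcj' j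
      rw [hcc] at this
      rw [this, coe_neg, coe_neg, Int.cast_neg, Int.cast_neg, hb1, he]
      push_cast
      rw [neg_one_mul, ← pw]
      have hs : (-(b : ZMod (2 ^ n))) ^ (j : ℕ) * (-((δ 0 0 : ℤ) : ZMod (2 ^ n))) ^ (w - (j : ℕ)) =
          -((b : ZMod (2 ^ n)) ^ (j : ℕ) * ((δ 0 0 : ℤ) : ZMod (2 ^ n)) ^ (w - (j : ℕ))) := by
        rw [neg_pow, neg_pow ((δ 0 0 : ℤ) : ZMod (2 ^ n))]
        have : ((-1 : ZMod (2 ^ n)) ^ (j : ℕ)) * ((-1 : ZMod (2 ^ n)) ^ (w - (j : ℕ))) = -1 := by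
          rw [← pow_add, Nat.add_sub_cancel' hj, hw.neg_one_pow]
        linear_combination (b : ZMod (2 ^ n)) ^ (j : ℕ) *
          ((δ 0 0 : ℤ) : ZMod (2 ^ n)) ^ (w - (j : ℕ)) * this
      rw [hs]
      ring
  by_cases hG : InG 3 M γ
  · rcases inG_iff.1 hG with h | h
    · exact main γ h
    · have := main _ h
      rw [mul_neg, neg_mul, resF_neg, resF_neg] at this
      exact this
  · rw [resF_out hG, resF_out (fun h => hG ((inG_conj hδ).1 h)), mul_zero, mul_zero]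

/-! ## Words -/

/-- intertwining passes from the generators to words -/
theorem word_gen {X A B : Type*} [AddCommGroup A] [AddCommGroup B] (f : A →+ B)
    (ρ : FreeAlgebra ℤ X →+* AddMonoid.End A) (β : FreeAlgebra ℤ X →+* AddMonoid.End B)
    (h : ∀ s a, f (ρ (FreeAlgebra.ι ℤ s) a) = β (FreeAlgebra.ι ℤ s) (f a))
    (Q : FreeAlgebra ℤ X) : ∀ a, f (ρ Q a) = β Q (f a) := by
  induction Q using FreeAlgebra.induction with
  | grade0 m =>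
    intro a
    rw [eq_intCast, map_intCast, map_intCast, AddMonoid.End.intCast_apply,
      AddMonoid.End.intCast_apply, map_zsmul]
  | grade1 s => exact h s
  | mul a b ha hb =>
    intro x
    rw [map_mul, map_mul]
    change f (ρ a (ρ b x)) = β a (β b (f x))
    rw [ha, hb]
  | add a b ha hb =>
    intro x
    rw [map_add, map_add]
    change f (ρ a x + ρ b x) = β a (f x) + β b (f x)
    rw [map_add, ha, hb]

/-- integral cocycles of `Γ₁(3)` -/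
abbrev ZC (w : ℕ) := Z1 (actM ℤ (AA (Gamma1 3) w))

theorem isC_of (v : ZC w) : IsC w (v : Gamma1 3 → Pw w ℤ) := by
  intro g h
  have := v.2 g h
  rw [actM_eq] at this
  exact this

/-- the restriction homomorphism to `Wf` -/
def resW (hw : Odd w) (hn : n ≤ M) (j : Fin (w + 1)) : ZC w →+ Wf M n w (w - (j : ℕ)) where
  toFun v := ⟨res hn (isC_of v) j, res_mem_Wf hw hn (isC_of v) j⟩
  map_zero' := by
    apply Subtype.ext
    apply V_ext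
    intro γ hγ
    change resF M n (0 : Gamma1 3 → Pw w ℤ) j γ = 0
    rw [resF_pos hγ, ex_mem _ hγ.mem, Pi.zero_apply, Pi.zero_apply, Int.cast_zero]
  map_add' v v' := by
    apply Subtype.ext
    exact res_add hn (isC_of v) (isC_of v') j

theorem resW_coe (hw : Odd w) (hn : n ≤ M) (j : Fin (w + 1)) (v : ZC w) :
    ((resW hw hn j v : Wf M n w (w - (j : ℕ))) : V 3 M n) = res hn (isC_of v) j := rfl

/-- the operator `T_ℓ` of level one representatives (`M = 0`) restricts to `ℓ^(w-j) T_ℓ` -/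
theorem res_T0 (hn : n ≤ M) {ℓ : ℕ} (hℓ : Good 3 ℓ) {δ₀ : SL(2, ℤ)} (h0 : IsDel 3 0 ℓ δ₀)
    (hu : IsC w u) (j : Fin (w + 1)) (ψ : V 3 M n) (hψ : IsT 3 M n ℓ (res hn hu j) ψ) :
    res hn (isC_hc (rep3 hℓ h0) hu) j = ((ℓ : ℤ) ^ (w - (j : ℕ))) • ψ := by
  obtain ⟨δ, hδ⟩ := exists_del M (b := (ℓ : ℤ)) (by
    have := cop_good hℓ 1
    norm_num at this
    exact this.symm)
  obtain ⟨b, hb⟩ := hc_cob_of_ex (act w) (rep3 hℓ hδ) (rep3 hℓ h0) (act_mul w) (act_one w)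
    (fun k => equiv3 hℓ hδ h0 k) (fun k => equiv3 hℓ h0 hδ k) u (fun g g' => hu g g')
  rw [res_congr hn (isC_hc (rep3 hℓ hδ) hu) (isC_hc (rep3 hℓ h0) hu) b hb j]
  exact res_T hn hℓ hδ hu j ψ hψ

/-- **words**: from the generators to all polynomials -/
theorem word_res (hw : Odd w) (hn : n ≤ M) (δ : PA 3 → SL(2, ℤ))
    (hδ : ∀ ℓ : PA 3, IsDel 3 0 ℓ.1 (δ ℓ)) (T : ℕ → AddMonoid.End (V 3 M n))
    (hT : ∀ ℓ, Good 3 ℓ → ∀ φ : V 3 M n, IsT 3 M n ℓ φ (T ℓ φ)) (j : Fin (w + 1))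
    (β : FreeAlgebra ℤ (PA 3 ⊕ PA 3) →+* AddMonoid.End (Wf M n w (w - (j : ℕ))))
    (hl : ∀ (ℓ : PA 3) φ, ((β (FreeAlgebra.ι ℤ (Sum.inl ℓ)) φ : Wf M n w (w - (j : ℕ))) :
      V 3 M n) = ((ℓ.1 : ℤ) ^ (w - (j : ℕ))) • T ℓ.1 (φ : V 3 M n))
    (hr : ∀ (ℓ : PA 3) φ, β (FreeAlgebra.ι ℤ (Sum.inr ℓ)) φ =
      (eps ℓ.1 * (ℓ.1 : ℤ) ^ (w + 1)) • φ)
    (Q : FreeAlgebra ℤ (PA 3 ⊕ PA 3)) (v : ZC w) :
    resW hw hn j (rhoR (fun ℓ : PA 3 => rep3 (M := 0) (ℓ := ℓ.1) ℓ.2 (hδ ℓ))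
      (fun ℓ : PA 3 => eps ℓ.1 * (ℓ.1 : ℤ) ^ (w + 1)) ℤ w Q v) = β Q (resW hw hn j v) := by
  refine word_gen (resW hw hn j) (rhoR (fun ℓ : PA 3 => rep3 (M := 0) (ℓ := ℓ.1) ℓ.2 (hδ ℓ))
      (fun ℓ : PA 3 => eps ℓ.1 * (ℓ.1 : ℤ) ^ (w + 1)) ℤ w).toRingHom β ?_ Q v
  rintro (ℓ | ℓ) v
  · apply Subtype.ext
    rw [hl, resW_coe, resW_coe, ← res_T0 hn ℓ.2 (hδ ℓ) (isC_of v) j _ (hT _ ℓ.2 _)]
    apply V_ext
    intro γ hγ
    rw [res_coe, res_coe]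
    congr 1
    exact rhoR_inl (fun ℓ : PA 3 => rep3 (M := 0) (ℓ := ℓ.1) ℓ.2 (hδ ℓ)) _ ℤ ℓ v
  · rw [hr, ← map_zsmul]
    congr 1
    apply Subtype.ext
    exact rhoR_inr (fun ℓ : PA 3 => rep3 (M := 0) (ℓ := ℓ.1) ℓ.2 (hδ ℓ)) _ ℤ ℓ v

/-- **output for chapter C**: a word which kills all the `Wf` is divisible by `2^n` on
`Γ₁(3) ∩ Γ(2^M)`, on every integral cocycle -/
theorem word_dvd (hw : Odd w) (hn : n ≤ M) (δ : PA 3 → SL(2, ℤ))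
    (hδ : ∀ ℓ : PA 3, IsDel 3 0 ℓ.1 (δ ℓ)) (T : ℕ → AddMonoid.End (V 3 M n))
    (hT : ∀ ℓ, Good 3 ℓ → ∀ φ : V 3 M n, IsT 3 M n ℓ φ (T ℓ φ))
    (β : ∀ e : Fin (w + 1), FreeAlgebra ℤ (PA 3 ⊕ PA 3) →+* AddMonoid.End (Wf M n w e))
    (hl : ∀ (e : Fin (w + 1)) (ℓ : PA 3) φ, ((β e (FreeAlgebra.ι ℤ (Sum.inl ℓ)) φ : Wf M n w e) :
      V 3 M n) = ((ℓ.1 : ℤ) ^ (e : ℕ)) • T ℓ.1 (φ : V 3 M n))
    (hr : ∀ (e : Fin (w + 1)) (ℓ : PA 3) φ, β e (FreeAlgebra.ι ℤ (Sum.inr ℓ)) φ =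
      (eps ℓ.1 * (ℓ.1 : ℤ) ^ (w + 1)) • φ)
    (Q : FreeAlgebra ℤ (PA 3 ⊕ PA 3)) (hQ : ∀ e, β e Q = 0) (v : ZC w) (γ : Gamma1 3)
    (hγ : InP M γ) : ∃ p : Pw w ℤ,
    ((rhoR (fun ℓ : PA 3 => rep3 (M := 0) (ℓ := ℓ.1) ℓ.2 (hδ ℓ))
      (fun ℓ : PA 3 => eps ℓ.1 * (ℓ.1 : ℤ) ^ (w + 1)) ℤ w Q v : ZC w) : Gamma1 3 → Pw w ℤ) γ =
      (2 ^ n : ℤ) • p := by
  refine (res_eq_zero_iff hn (isC_of _)).1 (fun j => ?_) γ hγ
  have hj : w - (j : ℕ) < w + 1 := by omega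
  have h1 := word_res hw hn δ hδ T hT j (β ⟨w - (j : ℕ), hj⟩) (hl ⟨w - (j : ℕ), hj⟩)
    (hr ⟨w - (j : ℕ), hj⟩) Q v
  rw [hQ] at h1
  exact congrArg (Subtype.val) h1

end Vale.Agent.P022.H420.L3
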