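import Mathlib

/-!
P022-L3, row [FRAT]: a two-dimensional trace modulo `(2, 𝔪²)` only depends on the class modulo
squares, and the inversion of letters.
-/

namespace Vale.Agent.P022.H420.L3

section Trace

variable {G R : Type*} [Group G] [CommRing R]

/-- the trace identities -/
structure TD (t : G → R) (d : G →* Rˣ) : Prop where
  comm : ∀ g h, t (g * h) = t (h * g)
  mul : ∀ g h, t g * t h = t (g * h) + (d h : R) * t (g * h⁻¹)

variable {t : G → R} {d : G →* Rˣ} {J : Ideal R}

theorem TD.inv_right (T : TD t d) (h2 : (2 : R) ∈ J) (ht : ∀ g, t g ∈ J)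
    (hd : ∀ g, (d g : R) - 1 ∈ J) (g h : G) : t (g * h) - t (g * h⁻¹) ∈ J ^ 2 := by
  have e : t (g * h) - t (g * h⁻¹) =
      t g * t h - ((d h : R) - 1) * t (g * h⁻¹) - 2 * t (g * h⁻¹) := by
    rw [T.mul g h]; ring
  rw [e, pow_two]
  exact sub_mem (sub_mem (Ideal.mul_mem_mul (ht g) (ht h))
    (Ideal.mul_mem_mul (hd h) (ht _))) (Ideal.mul_mem_mul h2 (ht _))

theorem TD.sq_right (T : TD t d) (h2 : (2 : R) ∈ J) (ht : ∀ g, t g ∈ J)
    (hd : ∀ g, (d g : R) - 1 ∈ J) (g h : G) : t (g * h ^ 2) - t g ∈ J ^ 2 := by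
  have := T.inv_right h2 ht hd (g * h) h
  rwa [mul_assoc, ← pow_two, mul_inv_cancel_right] at this

/-- the subgroup of the elements which do not change `t` modulo `J²` -/
def stab (t : G → R) (J : Ideal R) : Subgroup G where
  carrier := {n | ∀ g, t (g * n) - t g ∈ J ^ 2}
  one_mem' g := by simp
  mul_mem' {a b} ha hb g := by
    have := add_mem (hb (g * a)) (ha g)
    rwa [sub_add_sub_cancel, mul_assoc] at this
  inv_mem' {a} ha g := by
    have := neg_mem (ha (g * a⁻¹))
    rwa [inv_mul_cancel_right, neg_sub] at this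

/-- the characters of order two separate the classes modulo squares -/
theorem mem_closure_sq (x : G) (hx : ∀ χ : G →* Multiplicative (ZMod 2), χ x = 1) :
    x ∈ Subgroup.closure (Set.range fun g : G => g ^ 2) := by
  classical
  set S : Subgroup G := Subgroup.closure (Set.range fun g : G => g ^ 2) with hS
  have hn : S.Normal := by
    refine ⟨fun n hn g => ?_⟩
    have : S ≤ S.comap (MulAut.conj g).toMonoidHom := by
      rw [hS, Subgroup.closure_le]
      rintro _ ⟨y, rfl⟩
      refine Subgroup.subset_closure ⟨g * y * g⁻¹, ?_⟩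
      simp [pow_two, mul_assoc]
    simpa using this hn
  have hq : ∀ q : G ⧸ S, q * q = 1 := by
    intro q
    obtain ⟨y, rfl⟩ := QuotientGroup.mk_surjective q
    rw [← QuotientGroup.mk_mul, QuotientGroup.eq_one_iff, ← pow_two]
    exact Subgroup.subset_closure ⟨y, rfl⟩
  have hc : ∀ a b : G ⧸ S, a * b = b * a := by
    intro a b
    have ha : a⁻¹ = a := inv_eq_of_mul_eq_one_left (hq a)
    have hb : b⁻¹ = b := inv_eq_of_mul_eq_one_left (hq b)
    have hab : (a * b)⁻¹ = a * b := inv_eq_of_mul_eq_one_left (hq _)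
    rw [← hab, mul_inv_rev, ha, hb]
  let _ : CommGroup (G ⧸ S) := { (inferInstance : Group (G ⧸ S)) with mul_comm := hc }
  let _ : Module (ZMod 2) (Additive (G ⧸ S)) := AddCommGroup.zmodModule (n := 2) (by
    intro y
    rw [two_nsmul]
    exact hq y.toMul)
  rw [← QuotientGroup.eq_one_iff]
  have h0 : (Additive.ofMul (x : G ⧸ S)) = 0 := by
    rw [← Module.forall_dual_apply_eq_zero_iff (ZMod 2)]
    intro φ
    have := hx ((AddMonoidHom.toMultiplicative (φ : Additive (G ⧸ S) →+ ZMod 2)).comp
      ((MulEquiv.multiplicativeAdditive (G ⧸ S)).symm.toMonoidHom.comp (QuotientGroup.mk' S)))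
    exact this
  exact h0

theorem TD.frat (T : TD t d) (h2 : (2 : R) ∈ J) (ht : ∀ g, t g ∈ J)
    (hd : ∀ g, (d g : R) - 1 ∈ J) (g h : G)
    (hχ : ∀ χ : G →* Multiplicative (ZMod 2), χ g = χ h) : t g - t h ∈ J ^ 2 := by
  have h1 : h⁻¹ * g ∈ Subgroup.closure (Set.range fun g : G => g ^ 2) :=
    mem_closure_sq _ fun χ => by rw [map_mul, map_inv, hχ χ, inv_mul_cancel]
  have h3 : Subgroup.closure (Set.range fun g : G => g ^ 2) ≤ stab t J := by
    rw [Subgroup.closure_le]
    rintro _ ⟨y, rfl⟩ z
    exact T.sq_right h2 ht hd z y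
  have := h3 h1 h
  rwa [mul_inv_cancel_left] at this

end Trace

section Letters

variable {ι R : Type*} [CommRing R]

/-- every element is an integer modulo the letters -/
theorem exists_int (a : ι → R) (hgen : Subring.closure (Set.range a) = ⊤) (r : R) :
    ∃ n : ℤ, r - n ∈ Ideal.span (Set.range a) := by
  have hr : r ∈ Subring.closure (Set.range a) := hgen ▸ Subring.mem_top r
  induction hr using Subring.closure_induction with
  | mem x hx => exact ⟨0, by simpa using Ideal.subset_span hx⟩
  | zero => exact ⟨0, by simp⟩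
  | one => exact ⟨1, by simp⟩
  | add x y _ _ hx hy =>
    obtain ⟨n, hn⟩ := hx
    obtain ⟨m, hm⟩ := hy
    refine ⟨n + m, ?_⟩
    have := add_mem hn hm
    push_cast
    convert this using 1; ring
  | neg x _ hx =>
    obtain ⟨n, hn⟩ := hx
    refine ⟨-n, ?_⟩
    have := neg_mem hn
    push_cast
    convert this using 1; ring
  | mul x y _ _ hx hy =>
    obtain ⟨n, hn⟩ := hx
    obtain ⟨m, hm⟩ := hy
    refine ⟨n * m, ?_⟩
    have := add_mem (Ideal.mul_mem_right y _ hn) (Ideal.mul_mem_left _ (n : R) hm)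
    push_cast
    convert this using 1; ring

theorem inv_letters (a b : ι → R) (hgen : Subring.closure (Set.range a) = ⊤) (N : ℕ)
    (hN : Ideal.span (Set.range a) ^ N = ⊥)
    (hb : ∀ i, b i - a i ∈ Ideal.span (Set.range a) ^ 2) :
    Subring.closure (Set.range b) = ⊤ := by
  set J : Ideal R := Ideal.span (Set.range a) with hJ
  set S : Subring R := Subring.closure (Set.range b) with hS
  -- elements of `J ^ k` are congruent to elements of `S`
  have key : ∀ k, ∀ x ∈ J ^ k, ∃ s ∈ S, x - s ∈ J ^ (k + 1) ∧ s ∈ J ^ k := by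
    intro k
    induction k with
    | zero =>
      intro x _
      obtain ⟨n, hn⟩ := exists_int a hgen x
      exact ⟨n, intCast_mem S n, by simpa using hn, by simp⟩
    | succ k ih =>
      intro x hx
      rw [pow_succ'] at hx
      refine Submodule.mul_induction_on hx ?_ ?_
      · intro y hy z hz
        -- y in J, z in J^k
        obtain ⟨s, hs, hs1, hs2⟩ := ih z hz
        -- first for y in the span
        have hy' : ∃ u ∈ S, y - u ∈ J ^ 2 ∧ u ∈ J := by
          refine Submodule.span_induction ?_ ?_ ?_ ?_ hy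
          · rintro _ ⟨i, rfl⟩
            have h1 : b i ∈ J := by
              have := add_mem (Ideal.pow_le_self two_ne_zero (hb i))
                (Ideal.subset_span ⟨i, rfl⟩ : a i ∈ J)
              simpa using this
            refine ⟨b i, Subring.subset_closure ⟨i, rfl⟩, ?_, h1⟩
            have := neg_mem (hb i)
            simpa using this
          · exact ⟨0, S.zero_mem, by simp, J.zero_mem⟩
          · rintro p q _ _ ⟨u, hu, hu1, hu2⟩ ⟨v, hv, hv1, hv2⟩
            refine ⟨u + v, S.add_mem hu hv, ?_, J.add_mem hu2 hv2⟩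
            have := add_mem hu1 hv1
            convert this using 1; ring
          · rintro c p _ ⟨u, hu, hu1, hu2⟩
            obtain ⟨n, hn⟩ := exists_int a hgen c
            refine ⟨n * u, S.mul_mem (intCast_mem S n) hu, ?_, J.mul_mem_left _ hu2⟩
            have h1 : (c - n) * u ∈ J ^ 2 := by
              rw [pow_two]; exact Ideal.mul_mem_mul hn hu2
            have h3 := add_mem (Ideal.mul_mem_left _ c hu1) h1
            rw [smul_eq_mul]
            convert h3 using 1; ring
        obtain ⟨u, hu, hu1, hu2⟩ := hy'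
        refine ⟨u * s, S.mul_mem hu hs, ?_, ?_⟩
        · have e : y * z - u * s = (y - u) * z + u * (z - s) := by ring
          rw [e]
          refine add_mem ?_ ?_
          · have := Ideal.mul_mem_mul hu1 hz
            rwa [← pow_add, show 2 + k = k + 1 + 1 by ring] at this
          · have := Ideal.mul_mem_mul hu2 hs1
            rwa [← pow_succ'] at this
        · rw [pow_succ']
          exact Ideal.mul_mem_mul hu2 hs2
      · rintro p q ⟨s, hs, hs1, hs2⟩ ⟨v, hv, hv1, hv2⟩
        refine ⟨s + v, S.add_mem hs hv, ?_, add_mem hs2 hv2⟩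
        have := add_mem hs1 hv1
        convert this using 1; ring
  have main : ∀ m, ∀ k, k + m = N → ∀ x ∈ J ^ k, x ∈ S := by
    intro m
    induction m with
    | zero =>
      intro k hk x hx
      rw [add_zero] at hk
      rw [hk, hN] at hx
      rw [(Submodule.mem_bot R).1 hx]
      exact S.zero_mem
    | succ m ih =>
      intro k hk x hx
      obtain ⟨s, hs, hs1, _⟩ := key k x hx
      have := ih (k + 1) (by omega) _ hs1
      have h3 := S.add_mem this hs
      simpa using h3
  rw [eq_top_iff]
  intro x _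
  exact main N 0 (by simp) x (by simp)

/-- in a ring generated by the `b i` every element is an integer polynomial in the `b i` -/
theorem exists_poly (b : ι → R) (h : Subring.closure (Set.range b) = ⊤) (r : R) :
    ∃ Ψ : MvPolynomial ι ℤ, MvPolynomial.aeval b Ψ = r := by
  have h1 : Subring.closure (Set.range b) ≤
      (MvPolynomial.aeval b : MvPolynomial ι ℤ →ₐ[ℤ] R).toRingHom.range := by
    rw [Subring.closure_le]
    rintro _ ⟨i, rfl⟩
    exact ⟨MvPolynomial.X i, MvPolynomial.aeval_X b i⟩
  rw [h] at h1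
  exact h1 (Subring.mem_top r)

/-- the inversion of the letters in two rings at once: if the subring `A` of `R₁ × R₂` generated
by the pairs `(a₁ i, a₂ i)` contains the `(b₁ i, b₂ i)`, `b i - a i ∈ J²` there and `J ^ N = 0` in
both rings, then the `a i` are the same integer polynomials in the `b i` in both rings -/
theorem inv_pair {R₁ R₂ : Type*} [CommRing R₁] [CommRing R₂] (a₁ : ι → R₁) (a₂ : ι → R₂)
    (A : Subring (R₁ × R₂)) (hA : A = Subring.closure (Set.range fun i => (a₁ i, a₂ i)))
    (a b : ι → A) (ha : ∀ i, (a i : R₁ × R₂) = (a₁ i, a₂ i)) (N : ℕ)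
    (h₁ : Ideal.span (Set.range a₁) ^ N = ⊥) (h₂ : Ideal.span (Set.range a₂) ^ N = ⊥)
    (hb : ∀ i, b i - a i ∈ Ideal.span (Set.range a) ^ 2) (i : ι) :
    ∃ Ψ : MvPolynomial ι ℤ,
      MvPolynomial.aeval (fun j => (b j : R₁ × R₂).1) Ψ = a₁ i ∧
      MvPolynomial.aeval (fun j => (b j : R₁ × R₂).2) Ψ = a₂ i := by
  have hgen : Subring.closure (Set.range a) = ⊤ := by
    rw [eq_top_iff]
    rintro ⟨x, hx⟩ _
    have hx' : x ∈ Subring.closure (Set.range fun i => (a₁ i, a₂ i)) := hA ▸ hx
    have h3 : (Subring.closure (Set.range fun i => (a₁ i, a₂ i))) ≤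
        (Subring.closure (Set.range a)).map A.subtype := by
      rw [Subring.closure_le]
      rintro _ ⟨j, rfl⟩
      exact ⟨a j, Subring.subset_closure ⟨j, rfl⟩, ha j⟩
    obtain ⟨y, hy, hyx⟩ := h3 hx'
    have : y = ⟨x, hx⟩ := Subtype.ext hyx
    rwa [← this]
  have hN : Ideal.span (Set.range a) ^ N = ⊥ := by
    rw [eq_bot_iff]
    intro x hx
    have k1 : ((x : R₁ × R₂).1) ∈ Ideal.span (Set.range a₁) ^ N := by
      have := Ideal.mem_map_of_mem ((RingHom.fst R₁ R₂).comp A.subtype) hx
      rw [Ideal.map_pow, Ideal.map_span, ← Set.range_comp] at this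
      have e : (fun i => ((RingHom.fst R₁ R₂).comp A.subtype) (a i)) = a₁ := by
        funext j
        change ((a j : R₁ × R₂)).1 = _
        rw [ha j]
      have e' : (⇑((RingHom.fst R₁ R₂).comp A.subtype)) ∘ a = a₁ := e
      rwa [e'] at this
    have k2 : ((x : R₁ × R₂).2) ∈ Ideal.span (Set.range a₂) ^ N := by
      have := Ideal.mem_map_of_mem ((RingHom.snd R₁ R₂).comp A.subtype) hx
      rw [Ideal.map_pow, Ideal.map_span, ← Set.range_comp] at this
      have e : (fun i => ((RingHom.snd R₁ R₂).comp A.subtype) (a i)) = a₂ := by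
        funext j
        change ((a j : R₁ × R₂)).2 = _
        rw [ha j]
      have e' : (⇑((RingHom.snd R₁ R₂).comp A.subtype)) ∘ a = a₂ := e
      rwa [e'] at this
    rw [h₁, Submodule.mem_bot] at k1
    rw [h₂, Submodule.mem_bot] at k2
    rw [Submodule.mem_bot]
    exact Subtype.ext (Prod.ext k1 k2)
  obtain ⟨Ψ, hΨ⟩ := exists_poly b (inv_letters a b hgen N hN hb) (a i)
  refine ⟨Ψ, ?_, ?_⟩
  · have := congrArg ((RingHom.fst R₁ R₂).comp A.subtype) hΨ
    rw [MvPolynomial.aeval_def, MvPolynomial.hom_eval₂] at this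
    rw [MvPolynomial.aeval_def]
    have e : ((RingHom.fst R₁ R₂).comp A.subtype) (a i) = a₁ i := by
      change ((a i : R₁ × R₂)).1 = _
      rw [ha i]
    rw [e] at this
    rw [← this]
    congr 1
  · have := congrArg ((RingHom.snd R₁ R₂).comp A.subtype) hΨ
    rw [MvPolynomial.aeval_def, MvPolynomial.hom_eval₂] at this
    rw [MvPolynomial.aeval_def]
    have e : ((RingHom.snd R₁ R₂).comp A.subtype) (a i) = a₂ i := by
      change ((a i : R₁ × R₂)).2 = _
      rw [ha i]
    rw [e] at this
    rw [← this]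
    congr 1

end Letters

end Vale.Agent.P022.H420.L3
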