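import Vale.Agent.P022.H420.L3.Tw

/-!
P022-L3, chapter C, row [C-TW], part 2: the restriction of a cocycle `Γ₁(3) → P_w(ℤ)` to
`Γ₁(3) ∩ Γ(2^M)`, as elements of `V 3 M n` (`n ≤ M`), one for each coefficient; the twists.
-/

open scoped MatrixGroups
open CongruenceSubgroup

noncomputable section

namespace Vale.Agent.P022.H420.L3

open Vale.Agent.P022.L3 Vale.Agent.P022.H527.L3

/-- cocycles of `Γ₁(3)` with values in `P_w(ℤ)` -/
def IsC (w : ℕ) (u : Gamma1 3 → Pw w ℤ) : Prop :=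
  ∀ g h : Gamma1 3, u (g * h) = act w ((h : SL(2, ℤ)) : M2) (u g) + u h

/-- coboundaries -/
def cobW (w : ℕ) (b : Pw w ℤ) : Gamma1 3 → Pw w ℤ :=
  fun γ => act w ((γ : SL(2, ℤ)) : M2) b - b

theorem coe_mul (g h : SL(2, ℤ)) : ((g * h : SL(2, ℤ)) : M2) = (g : M2) * (h : M2) :=
  Matrix.SpecialLinearGroup.coe_mul g h

theorem coe_one : ((1 : SL(2, ℤ)) : M2) = 1 := Matrix.SpecialLinearGroup.coe_one

theorem isC_cob (w : ℕ) (b : Pw w ℤ) : IsC w (cobW w b) := by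
  intro g h
  simp only [cobW, Subgroup.coe_mul, coe_mul, act_mul, map_sub]
  abel

theorem IsC.one {w : ℕ} {u : Gamma1 3 → Pw w ℤ} (hu : IsC w u) : u 1 = 0 := by
  have := hu 1 1
  rw [mul_one, Subgroup.coe_one, coe_one, act_one] at this
  simpa using this

theorem IsC.add {w : ℕ} {u v : Gamma1 3 → Pw w ℤ} (hu : IsC w u) (hv : IsC w v) :
    IsC w (u + v) := by
  intro g h
  simp only [Pi.add_apply, hu g h, hv g h, map_add]
  abel

theorem IsC.smul {w : ℕ} {u : Gamma1 3 → Pw w ℤ} (hu : IsC w u) (m : ℤ) : IsC w (m • u) := by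
  intro g h
  simp only [Pi.smul_apply, hu g h, map_zsmul, smul_add]

open Classical in
/-- extension by zero -/
def ex {w : ℕ} (u : Gamma1 3 → Pw w ℤ) (γ : SL(2, ℤ)) : Pw w ℤ :=
  if h : γ ∈ Gamma1 3 then u ⟨γ, h⟩ else 0

theorem ex_coe {w : ℕ} (u : Gamma1 3 → Pw w ℤ) (γ : Gamma1 3) : ex u γ = u γ := by
  rw [ex, dif_pos γ.2]

theorem ex_mem {w : ℕ} (u : Gamma1 3 → Pw w ℤ) {γ : SL(2, ℤ)} (h : γ ∈ Gamma1 3) :
    ex u γ = u ⟨γ, h⟩ := by
  rw [ex, dif_pos h]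

theorem IsC.ex {w : ℕ} {u : Gamma1 3 → Pw w ℤ} (hu : IsC w u) {g h : SL(2, ℤ)}
    (hg : g ∈ Gamma1 3) (hh : h ∈ Gamma1 3) :
    ex u (g * h) = act w (h : M2) (ex u g) + ex u h := by
  rw [ex_mem u hg, ex_mem u hh, ex_mem u ((Gamma1 3).mul_mem hg hh)]
  exact hu ⟨g, hg⟩ ⟨h, hh⟩

/-! ## Signs -/

theorem coe_neg (γ : SL(2, ℤ)) (i j : Fin 2) : (-γ) i j = -(γ i j) := rfl

theorem inG_iff {M : ℕ} {γ : SL(2, ℤ)} : InG 3 M γ ↔ InP M γ ∨ InP M (-γ) := by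
  simp only [InG, InP, coe_neg, dvd_neg]
  rw [show -(γ 1 1) - 1 = -(γ 1 1 + 1) by ring, dvd_neg]
  tauto

theorem not_both {M : ℕ} {γ : SL(2, ℤ)} (h : InP M γ) : ¬ InP M (-γ) := by
  intro h'
  have h1 := h.mono.2.2
  have h2 := h'.mono.2.2
  rw [coe_neg] at h2
  obtain ⟨x, hx⟩ := h1
  obtain ⟨y, hy⟩ := h2
  push_cast at hx hy
  omega

theorem InP.mul {M : ℕ} {γ δ : SL(2, ℤ)} (h : InP M γ) (h' : InP M δ) : InP M (γ * δ) := by
  have := h.cls.mul h'.cls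
  rw [← coe_mul] at this
  exact ⟨this.h10, this.h01, this.h11⟩

theorem inP_one (M : ℕ) : InP M 1 := by
  refine ⟨?_, ?_, ?_⟩ <;> simp

/-! ## The restriction -/

open Classical in
/-- the `j`-th coefficient modulo `2^n` on `± (Γ₁(3) ∩ Γ(2^M))` -/
def resF {w : ℕ} (M n : ℕ) (u : Gamma1 3 → Pw w ℤ) (j : Fin (w + 1)) :
    SL(2, ℤ) → ZMod (2 ^ n) := fun γ =>
  if InP M γ then ((ex u γ j : ℤ) : ZMod (2 ^ n)) else
    if InP M (-γ) then ((ex u (-γ) j : ℤ) : ZMod (2 ^ n)) else 0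

variable {w M n : ℕ} {u : Gamma1 3 → Pw w ℤ}

theorem resF_pos {γ : SL(2, ℤ)} (h : InP M γ) (j : Fin (w + 1)) :
    resF M n u j γ = ((ex u γ j : ℤ) : ZMod (2 ^ n)) := by
  rw [resF, if_pos h]

theorem resF_neg (γ : SL(2, ℤ)) (j : Fin (w + 1)) : resF M n u j (-γ) = resF M n u j γ := by
  rw [resF, resF, neg_neg]
  by_cases h : InP M γ
  · rw [if_pos h, if_pos h, if_neg (not_both h)]
  · rw [if_neg h]
    by_cases h' : InP M (-γ)
    · rw [if_pos h', if_neg h]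
    · rw [if_neg h', if_neg h]

theorem resF_out {γ : SL(2, ℤ)} (h : ¬ InG 3 M γ) (j : Fin (w + 1)) : resF M n u j γ = 0 := by
  rw [inG_iff, not_or] at h
  rw [resF, if_neg h.1, if_neg h.2]

/-- the action of `Γ(2^M)` modulo `2^n` is trivial -/
theorem act_inP (hn : n ≤ M) {γ : SL(2, ℤ)} (h : InP M γ) (p : Pw w ℤ) (j : Fin (w + 1)) :
    ((act w (γ : M2) p j : ℤ) : ZMod (2 ^ n)) = p j := by
  have hd : ((2 ^ n : ℕ) : ℤ) ∣ ((2 ^ M : ℕ) : ℤ) := by exact_mod_cast pow_dvd_pow 2 hn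
  have hc := h.cls
  exact act_one_mod w _ _ (hd.trans hc.h01) ((hd.trans (dvd3 M)).trans hc.h10)
    ((hd.trans (dvd3 M)).trans hc.h00) ((hd.trans (dvd3 M)).trans hc.h11) p j

theorem resF_mul (hn : n ≤ M) (hu : IsC w u) {γ δ : SL(2, ℤ)} (h : InP M γ) (h' : InP M δ)
    (j : Fin (w + 1)) : resF M n u j (γ * δ) = resF M n u j γ + resF M n u j δ := by
  rw [resF_pos (h.mul h'), resF_pos h, resF_pos h', hu.ex h.mem h'.mem, Pi.add_apply,
    Int.cast_add, act_inP hn h']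

/-- the restriction as an element of `V 3 M n` -/
def res (hn : n ≤ M) (hu : IsC w u) (j : Fin (w + 1)) : V 3 M n :=
  ⟨resF M n u j, fun γ h => resF_out h j, fun γ δ h h' => by
    rw [inG_iff] at h h'
    rcases h with h | h <;> rcases h' with h' | h'
    · exact resF_mul hn hu h h' j
    · have := resF_mul hn hu h h' j
      rw [mul_neg, resF_neg, resF_neg] at this
      exact this
    · have := resF_mul hn hu h h' j
      rw [neg_mul, resF_neg, resF_neg] at this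
      exact this
    · have := resF_mul hn hu h h' j
      rw [neg_mul_neg, resF_neg, resF_neg] at this
      exact this, by
    rw [resF_neg, resF_pos (inP_one M), ex_mem u (Gamma1 3).one_mem]
    have : (⟨1, (Gamma1 3).one_mem⟩ : Gamma1 3) = 1 := rfl
    rw [this, hu.one, Pi.zero_apply, Int.cast_zero]⟩

@[simp] theorem res_coe (hn : n ≤ M) (hu : IsC w u) (j : Fin (w + 1)) :
    (res hn hu j : SL(2, ℤ) → ZMod (2 ^ n)) = resF M n u j := rfl

theorem V_neg (φ : V 3 M n) {γ : SL(2, ℤ)} (h : InG 3 M γ) :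
    (φ : SL(2, ℤ) → ZMod (2 ^ n)) (-γ) = (φ : SL(2, ℤ) → ZMod (2 ^ n)) γ := by
  have h1 : InG 3 M (-1) := inG_iff.2 (Or.inr (by rw [neg_neg]; exact inP_one M))
  have := φ.2.2.1 (-1) γ h1 h
  rw [φ.2.2.2, zero_add, neg_one_mul] at this
  exact this

/-- an element of `V 3 M n` is determined by its values on `Γ₁(3) ∩ Γ(2^M)` -/
theorem V_ext (φ ψ : V 3 M n) (h : ∀ γ, InP M γ → (φ : SL(2, ℤ) → ZMod (2 ^ n)) γ =
    (ψ : SL(2, ℤ) → ZMod (2 ^ n)) γ) : φ = ψ := by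
  apply Subtype.ext
  funext γ
  by_cases hγ : InG 3 M γ
  · rcases inG_iff.1 hγ with h1 | h1
    · exact h γ h1
    · rw [← V_neg φ hγ, ← V_neg ψ hγ]
      exact h _ h1
  · rw [φ.2.1 γ hγ, ψ.2.1 γ hγ]

theorem res_add (hn : n ≤ M) {v : Gamma1 3 → Pw w ℤ} (hu : IsC w u) (hv : IsC w v)
    (j : Fin (w + 1)) : res hn (hu.add hv) j = res hn hu j + res hn hv j := by
  apply V_ext
  intro γ h
  rw [res_coe, AddSubgroup.coe_add, Pi.add_apply, res_coe, res_coe, resF_pos h, resF_pos h,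
    resF_pos h, ex_mem _ h.mem, ex_mem _ h.mem, ex_mem _ h.mem, Pi.add_apply, Pi.add_apply,
    Int.cast_add]

theorem res_smul (hn : n ≤ M) (hu : IsC w u) (m : ℤ) (j : Fin (w + 1)) :
    res hn (hu.smul m) j = m • res hn hu j := by
  apply V_ext
  intro γ h
  rw [res_coe, AddSubgroup.coe_zsmul, Pi.smul_apply, res_coe, resF_pos h, resF_pos h,
    ex_mem _ h.mem, ex_mem _ h.mem, Pi.smul_apply, Pi.smul_apply, smul_eq_mul, Int.cast_mul,
    zsmul_eq_mul]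

/-- coboundaries restrict to zero -/
theorem res_cob (hn : n ≤ M) (b : Pw w ℤ) (j : Fin (w + 1)) : res hn (isC_cob w b) j = 0 := by
  apply V_ext
  intro γ h
  rw [res_coe, resF_pos h, ex_mem _ h.mem, cobW, Pi.sub_apply, Int.cast_sub, act_inP hn h,
    sub_self]
  rfl

theorem res_congr (hn : n ≤ M) {v : Gamma1 3 → Pw w ℤ} (hu : IsC w u) (hv : IsC w v)
    (b : Pw w ℤ) (h : ∀ γ, v γ = u γ + cobW w b γ) (j : Fin (w + 1)) :
    res hn hv j = res hn hu j := by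
  have e : v = u + cobW w b := funext h
  subst e
  rw [res_add hn hu (isC_cob w b), res_cob, add_zero]

/-- all coefficients restrict to zero iff `2^n` divides `u` on `Γ₁(3) ∩ Γ(2^M)` -/
theorem res_eq_zero_iff (hn : n ≤ M) (hu : IsC w u) :
    (∀ j, res hn hu j = 0) ↔ ∀ γ : Gamma1 3, InP M γ → ∃ p : Pw w ℤ, u γ = (2 ^ n : ℤ) • p := by
  constructor
  · intro h γ hγ
    have hj : ∀ j, ∃ x : ℤ, u γ j = 2 ^ n * x := by
      intro j
      have h1 := congrArg (fun φ : V 3 M n => (φ : SL(2, ℤ) → ZMod (2 ^ n)) γ) (h j)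
      have h2 : ((u γ j : ℤ) : ZMod (2 ^ n)) = 0 := by
        have h3 : resF M n u j γ = 0 := h1
        rwa [resF_pos hγ, ex_coe] at h3
      have h3 := (ZMod.intCast_zmod_eq_zero_iff_dvd _ _).1 h2
      push_cast at h3
      exact h3
    choose p hp using hj
    exact ⟨p, funext fun j => by rw [Pi.smul_apply, smul_eq_mul, hp j]⟩
  · intro h j
    apply V_ext
    intro γ hγ
    obtain ⟨p, hp⟩ := h ⟨γ, hγ.mem⟩ hγ
    rw [res_coe, resF_pos hγ, ex_mem _ hγ.mem, hp, Pi.smul_apply, smul_eq_mul]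
    push_cast
    have : (2 : ZMod (2 ^ n)) ^ n = 0 := by
      have := ZMod.natCast_self (2 ^ n)
      push_cast at this
      exact this
    rw [this, zero_mul]
    rfl

/-! ## The operators -/

theorem isC_hc {ι : Type*} [Fintype ι] {α : ι → M2} (h : Rep (rho (Gamma1 3)) α)
    (hu : IsC w u) : IsC w (h.hc (act w) u) := fun g g' =>
  h.hc_cocycle (act w) (fun a b p => act_mul w a b p) u (fun γ γ' => hu γ γ') g g'

/-- the restriction of the operator -/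
theorem hc_resF {ι : Type*} [Fintype ι] {α : ι → M2} (hn : n ≤ M) {a d : ℤ}
    (h : Rep (rho (Gamma1 3)) α) (hα : ∀ i, Cls M a d (α i))
    (ha : IsCoprime ((3 * 2 ^ M : ℕ) : ℤ) a) (hd : IsCoprime ((3 * 2 ^ M : ℕ) : ℤ) d)
    (γ : Gamma1 3) (hγ : InP M γ) (j : Fin (w + 1)) :
    resF M n (h.hc (act w) u) j γ =
      (a : ZMod (2 ^ n)) ^ (j : ℕ) * (d : ZMod (2 ^ n)) ^ (w - (j : ℕ)) *
        ∑ i, resF M n u j (h.el γ i) := by
  have hdv : ((2 ^ n : ℕ) : ℤ) ∣ ((2 ^ M : ℕ) : ℤ) := by exact_mod_cast pow_dvd_pow 2 hn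
  rw [resF_pos hγ, ex_coe, Rep.hc, Finset.sum_apply, Int.cast_sum, Finset.mul_sum]
  refine Finset.sum_congr rfl fun i _ => ?_
  have hc := hα (h.nx γ i)
  rw [act_diag w _ (2 ^ n) a d (hdv.trans hc.h01) ((hdv.trans (dvd3 M)).trans hc.h10)
    ((hdv.trans (dvd3 M)).trans hc.h00) ((hdv.trans (dvd3 M)).trans hc.h11),
    resF_pos (el_inP h hα ha hd γ hγ i), ex_coe]

/-- **`T_ℓ`**: the `j`-th coefficient of `T_ℓ u` restricts to `ℓ^(w-j)` times `T_ℓ` -/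
theorem res_T (hn : n ≤ M) {ℓ : ℕ} (hℓ : Good 3 ℓ) {δ : SL(2, ℤ)} (hδ : IsDel 3 M ℓ δ)
    (hu : IsC w u) (j : Fin (w + 1)) (ψ : V 3 M n) (hψ : IsT 3 M n ℓ (res hn hu j) ψ) :
    res hn (isC_hc (rep3 hℓ hδ) hu) j = ((ℓ : ℤ) ^ (w - (j : ℕ))) • ψ := by
  apply V_ext
  intro γ hγ
  rw [res_coe, AddSubgroup.coe_zsmul, Pi.smul_apply]
  have e := hc_resF hn (rep3 hℓ hδ) (fun i => cls_alp hδ i) isCoprime_one_right
    (cop_good hℓ M) ⟨γ, hγ.mem⟩ hγ j (u := u)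
  refine e.trans ?_
  rw [Int.cast_one, one_pow, one_mul, Int.cast_natCast, zsmul_eq_mul, Int.cast_pow,
    Int.cast_natCast]
  obtain ⟨π, g, hg, heq, hv⟩ := hψ δ hδ γ (inG_iff.2 (Or.inl hγ))
  rw [hv]
  congr 1
  refine Finset.sum_congr rfl fun i => ?_
  intro _
  have hc : Cls M 1 ℓ (alp M ℓ δ i * (γ : M2)) := by
    have := (cls_alp hδ i).mul hγ.cls
    rwa [mul_one, mul_one] at this
  have hp := hc.cancel (cls_alp hδ (π i)) isCoprime_one_right (cop_good hℓ M) (heq i)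
  have hp' : InP M (g i) := hp
  have hq := (rep3 hℓ hδ).uniq (γ := ⟨γ, hγ.mem⟩) (i := i) (γ' := ⟨g i, hp'.mem⟩) (j := π i)
    (heq i)
  rw [hq.2]
  rfl

/-- **`D_a`**: the `j`-th coefficient of `D_a u`, times `a ^ j`, restricts to `a^(w-j)` times
`D_a` -/
theorem res_D (hn : n ≤ M) {a : ℤ} {δ : SL(2, ℤ)} (hδ : IsDel 3 M a δ)
    (hu : IsC w u) (j : Fin (w + 1)) (χ : V 3 M n) (hχ : IsD 3 M n a (res hn hu j) χ) :
    a ^ (j : ℕ) • res hn (isC_hc (repD hδ) hu) j = (a ^ (w - (j : ℕ))) • χ := by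
  apply V_ext
  intro γ hγ
  rw [AddSubgroup.coe_zsmul, AddSubgroup.coe_zsmul, Pi.smul_apply, Pi.smul_apply, res_coe]
  have e := hc_resF hn (repD hδ) (fun _ => cls_del hδ) (cop_del hδ).1 (cop_del hδ).2
    ⟨γ, hγ.mem⟩ hγ j (u := u)
  have e' := congrArg (fun x => a ^ (j : ℕ) • x) e
  refine e'.trans ?_
  have ha : ((a : ℤ) : ZMod (2 ^ n)) * ((δ 0 0 : ℤ) : ZMod (2 ^ n)) = 1 := by
    have hdv : ((2 ^ n : ℕ) : ℤ) ∣ ((2 ^ M : ℕ) : ℤ) := by exact_mod_cast pow_dvd_pow 2 hn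
    have := (cast_iff (2 ^ n) _ _).2 ((hdv.trans (dvd3 M)).trans (del_cls hδ))
    rwa [Int.cast_mul, Int.cast_one] at this
  have hq := (repD hδ).uniq (γ := ⟨γ, hγ.mem⟩) (i := ()) (γ' := ⟨δ * γ * δ⁻¹, ?_⟩) (j := ()) ?_
  · simp only [Finset.univ_unique, Finset.sum_singleton, zsmul_eq_mul]
    rw [hχ δ hδ γ, show (default : Unit) = () from rfl, hq.2]
    push_cast
    calc (a : ZMod (2 ^ n)) ^ (j : ℕ) * ((δ 0 0 : ℤ) ^ (j : ℕ) * (a : ZMod (2 ^ n)) ^ (w - (j : ℕ)) *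
          resF M n u j (δ * γ * δ⁻¹))
        = ((a : ZMod (2 ^ n)) * (δ 0 0 : ℤ)) ^ (j : ℕ) * ((a : ZMod (2 ^ n)) ^ (w - (j : ℕ)) *
          resF M n u j (δ * γ * δ⁻¹)) := by ring
      _ = _ := by rw [ha, one_pow, one_mul]; rfl
  · have hc : Cls M (δ 0 0) a ((δ : M2) * (γ : M2)) := by
      have := (cls_del hδ).mul hγ.cls
      rwa [mul_one, mul_one] at this
    have := hc.cancel (ω := ((δ * γ * δ⁻¹ : SL(2, ℤ)) : M2)) (cls_del hδ) (cop_del hδ).1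
      (cop_del hδ).2 (by rw [← coe_mul, ← coe_mul, inv_mul_cancel_right])
    exact InP.mem (M := M) this
  · rw [rho_apply, rho_apply]
    change (δ : M2) * (γ : M2) = ((δ * γ * δ⁻¹ : SL(2, ℤ)) : M2) * (δ : M2)
    rw [← coe_mul, ← coe_mul, inv_mul_cancel_right]

end Vale.Agent.P022.H420.L3
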