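import Vale.Agent.P022.H138.L3.Defs
import Vale.Agent.P022.H527.L3.Mat
import Vale.Agent.P022.H420.L3.Pw

/-!
P022-L3, chapter C, row [C-TW], part 1: representatives for `Γ₁(3)` in the letters `alp`, `IsDel`;
the operators on cocycles do not depend on the representatives, modulo coboundaries.
-/

open scoped MatrixGroups
open CongruenceSubgroup

noncomputable section

namespace Vale.Agent.P022.H420.L3

open Vale.Agent.P022.L3 Vale.Agent.P022.H527.L3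

/-! ## Cocycles and change of representatives -/

section congr

variable {Γ Mo ι κ : Type*} [Group Γ] [Monoid Mo] {ρ : Γ →* Mo} {α : ι → Mo} {β : κ → Mo}
  [Fintype ι] [Fintype κ] {P : Type*} [AddCommGroup P] (act : Mo → P →+ P)

/-- equivalent representatives: the operators on cocycles differ by a coboundary -/
theorem hc_congr_cob (h : Rep ρ α) (h' : Rep ρ β) (hact : ∀ a b p, act (a * b) p = act b (act a p))
    (hone : ∀ p, act 1 p = p) (e : κ ≃ ι) (δ : κ → Γ) (hδ : ∀ k, β k = ρ (δ k) * α (e k))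
    (u : Γ → P) (hu : ∀ g g', u (g * g') = act (ρ g') (u g) + u g') :
    ∃ b : P, ∀ γ, h'.hc act u γ = h.hc act u γ + (act (ρ γ) b - b) := by
  have u1 : u 1 = 0 := by
    have := hu 1 1
    rw [mul_one, map_one, hone] at this
    simpa using this
  have uinv : ∀ g, act (ρ g) (u g⁻¹) = -u g := by
    intro g
    have := hu g⁻¹ g
    rw [inv_mul_cancel, u1] at this
    exact eq_neg_of_add_eq_zero_left this.symm
  refine ⟨∑ k, act (α (e k)) (u (δ k)), fun γ => ?_⟩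
  have key : ∀ k, h'.nx γ k = e.symm (h.nx γ (e k)) ∧
      h'.el γ k = δ k * h.el γ (e k) * (δ (e.symm (h.nx γ (e k))))⁻¹ := by
    intro k
    apply h'.uniq
    set j := h.nx γ (e k) with hj
    rw [hδ k, mul_assoc, h.eq γ (e k), ← hj, hδ (e.symm j), Equiv.apply_symm_apply, map_mul,
      map_mul, mul_assoc (ρ (δ k) * ρ _), ← mul_assoc (ρ (δ (e.symm j))⁻¹),
      ← map_mul ρ _ (δ (e.symm j)), inv_mul_cancel, map_one, one_mul, mul_assoc]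
  have term : ∀ k, act (β (h'.nx γ k)) (u (h'.el γ k)) =
      act (ρ γ) (act (α (e k)) (u (δ k))) + act (α (h.nx γ (e k))) (u (h.el γ (e k))) -
        act (α (h.nx γ (e k))) (u (δ (e.symm (h.nx γ (e k))))) := by
    intro k
    rw [(key k).1, (key k).2, hu, map_add, hδ (e.symm _), Equiv.apply_symm_apply, hact, hact,
      ← hact (ρ _⁻¹), ← map_mul ρ, inv_mul_cancel, map_one, hone, hu, uinv, map_add, map_neg,
      ← hact (ρ _), ← h.eq, hact]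
    abel
  have e1 : ∑ k, act (α (h.nx γ (e k))) (u (δ (e.symm (h.nx γ (e k))))) =
      ∑ k, act (α (e k)) (u (δ k)) := by
    have := Equiv.sum_comp ((e.trans (h.perm γ)).trans e.symm)
      fun k => act (α (e k)) (u (δ k))
    simpa using this
  have e2 : ∑ k, act (α (h.nx γ (e k))) (u (h.el γ (e k))) = h.hc act u γ :=
    Equiv.sum_comp e fun i => act (α (h.nx γ i)) (u (h.el γ i))
  rw [Rep.hc, Finset.sum_congr rfl fun k _ => term k, Finset.sum_sub_distrib,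
    Finset.sum_add_distrib, e1, e2, map_sum]
  abel

/-- the same for families which are equivalent elementwise -/
theorem hc_cob_of_ex (h : Rep ρ α) (h' : Rep ρ β) (hact : ∀ a b p, act (a * b) p = act b (act a p))
    (hone : ∀ p, act 1 p = p) (h1 : ∀ k, ∃ i δ, β k = ρ δ * α i)
    (h2 : ∀ i, ∃ k δ, α i = ρ δ * β k)
    (u : Γ → P) (hu : ∀ g g', u (g * g') = act (ρ g') (u g) + u g') :
    ∃ b : P, ∀ γ, h'.hc act u γ = h.hc act u γ + (act (ρ γ) b - b) := by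
  choose f δ hf using h1
  choose g ε hg using h2
  have fg : ∀ i, f (g i) = i := by
    intro i
    have h3 := hg i
    rw [hf (g i), ← mul_assoc, ← map_mul] at h3
    have h4 : ρ 1 * α i = ρ (ε i * δ (g i)) * α (f (g i)) := by rw [map_one, one_mul]; exact h3
    exact (h.inj _ _ _ _ h4).1.symm
  have gf : ∀ k, g (f k) = k := by
    intro k
    have h3 := hf k
    rw [hg (f k), ← mul_assoc, ← map_mul] at h3
    have h4 : ρ 1 * β k = ρ (δ k * ε (f k)) * β (g (f k)) := by rw [map_one, one_mul]; exact h3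
    exact (h'.inj _ _ _ _ h4).1.symm
  exact hc_congr_cob act h h' hact hone ⟨f, g, gf, fg⟩ δ hf u hu

/-- the operator maps coboundaries to coboundaries -/
theorem hc_of_cob (h : Rep ρ α) (hact : ∀ a b p, act (a * b) p = act b (act a p)) (b : P)
    (γ : Γ) : h.hc act (fun g => act (ρ g) b - b) γ =
      act (ρ γ) (∑ i, act (α i) b) - ∑ i, act (α i) b :=
  h.hc_cob act hact b _ (fun _ => rfl) γ

end congr

/-! ## The class of a matrix for `Γ₁(3)`, level `2^M` -/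

/-- `A ≡ diag(a, d)` modulo `2^M`, `A ≡ [a, *; 0, d]` modulo `3` -/
structure Cls (M : ℕ) (a d : ℤ) (A : M2) : Prop where
  h10 : ((3 * 2 ^ M : ℕ) : ℤ) ∣ A 1 0
  h01 : ((2 ^ M : ℕ) : ℤ) ∣ A 0 1
  h00 : ((3 * 2 ^ M : ℕ) : ℤ) ∣ A 0 0 - a
  h11 : ((3 * 2 ^ M : ℕ) : ℤ) ∣ A 1 1 - d

theorem dvd3 (M : ℕ) : ((2 ^ M : ℕ) : ℤ) ∣ ((3 * 2 ^ M : ℕ) : ℤ) := by
  exact_mod_cast Dvd.intro_left 3 rfl

theorem Cls.mul {M : ℕ} {a d a' d' : ℤ} {A B : M2} (hA : Cls M a d A) (hB : Cls M a' d' B) :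
    Cls M (a * a') (d * d') (A * B) := by
  constructor
  · rw [Matrix.mul_apply, Fin.sum_univ_two]
    exact dvd_add (Dvd.dvd.mul_right hA.h10 _) (Dvd.dvd.mul_left hB.h10 _)
  · rw [Matrix.mul_apply, Fin.sum_univ_two]
    exact dvd_add (Dvd.dvd.mul_left hB.h01 _) (Dvd.dvd.mul_right hA.h01 _)
  · rw [Matrix.mul_apply, Fin.sum_univ_two]
    obtain ⟨x, hx⟩ := hA.h00
    obtain ⟨y, hy⟩ := hB.h00
    obtain ⟨z, hz⟩ := hB.h10
    exact ⟨x * B 0 0 + a * y + A 0 1 * z, by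
      rw [hz]; linear_combination hx * B 0 0 + a * hy⟩
  · rw [Matrix.mul_apply, Fin.sum_univ_two]
    obtain ⟨x, hx⟩ := hA.h11
    obtain ⟨y, hy⟩ := hB.h11
    obtain ⟨z, hz⟩ := hA.h10
    exact ⟨x * B 1 1 + d * y + B 0 1 * z, by
      rw [hz]; linear_combination hx * B 1 1 + d * hy⟩

/-- cancellation in the class -/
theorem Cls.cancel {M : ℕ} {a d : ℤ} {A B ω : M2} (hA : Cls M a d A) (hB : Cls M a d B)
    (ha : IsCoprime ((3 * 2 ^ M : ℕ) : ℤ) a) (hd : IsCoprime ((3 * 2 ^ M : ℕ) : ℤ) d)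
    (e : A = ω * B) :
    ((3 * 2 ^ M : ℕ) : ℤ) ∣ ω 1 0 ∧ ((2 ^ M : ℕ) : ℤ) ∣ ω 0 1 ∧
      ((3 * 2 ^ M : ℕ) : ℤ) ∣ ω 1 1 - 1 := by
  have e10 : A 1 0 = ω 1 0 * B 0 0 + ω 1 1 * B 1 0 := by
    rw [e, Matrix.mul_apply, Fin.sum_univ_two]
  have e01 : A 0 1 = ω 0 0 * B 0 1 + ω 0 1 * B 1 1 := by
    rw [e, Matrix.mul_apply, Fin.sum_univ_two]
  have e11 : A 1 1 = ω 1 0 * B 0 1 + ω 1 1 * B 1 1 := by
    rw [e, Matrix.mul_apply, Fin.sum_univ_two]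
  obtain ⟨x, hx⟩ := hA.h10
  obtain ⟨y, hy⟩ := hB.h10
  obtain ⟨z, hz⟩ := hB.h00
  have r10 : ((3 * 2 ^ M : ℕ) : ℤ) ∣ ω 1 0 := by
    apply ha.dvd_of_dvd_mul_right
    exact ⟨x - ω 1 1 * y - ω 1 0 * z, by linear_combination hx - e10 - ω 1 1 * hy - ω 1 0 * hz⟩
  refine ⟨r10, ?_, ?_⟩
  · have hd' : IsCoprime ((2 ^ M : ℕ) : ℤ) d := hd.of_isCoprime_of_dvd_left (dvd3 M)
    apply hd'.dvd_of_dvd_mul_right
    obtain ⟨x, hx⟩ := hA.h01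
    obtain ⟨y, hy⟩ := hB.h01
    obtain ⟨z, hz⟩ := (dvd3 M).trans hB.h11
    exact ⟨x - ω 0 0 * y - ω 0 1 * z, by linear_combination hx - e01 - ω 0 0 * hy - ω 0 1 * hz⟩
  · apply hd.dvd_of_dvd_mul_right
    obtain ⟨r, hr⟩ := r10
    obtain ⟨x, hx⟩ := hA.h11
    obtain ⟨z, hz⟩ := hB.h11
    exact ⟨x - r * B 0 1 - ω 1 1 * z, by
      linear_combination hx - e11 - B 0 1 * hr - ω 1 1 * hz⟩

theorem Cls.mono {M : ℕ} {a d : ℤ} {A : M2} (h : Cls M a d A) : Cls 0 a d A := by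
  have h3 : ((3 * 2 ^ 0 : ℕ) : ℤ) ∣ ((3 * 2 ^ M : ℕ) : ℤ) := by
    exact_mod_cast Nat.mul_dvd_mul_left 3 (pow_dvd_pow 2 (Nat.zero_le M))
  exact ⟨h3.trans h.h10, by simp, h3.trans h.h00, h3.trans h.h11⟩

/-- `Γ₁(3) ∩ Γ(2^M)` -/
def InP (M : ℕ) (γ : SL(2, ℤ)) : Prop :=
  ((3 * 2 ^ M : ℕ) : ℤ) ∣ γ 1 0 ∧ ((2 ^ M : ℕ) : ℤ) ∣ γ 0 1 ∧ ((3 * 2 ^ M : ℕ) : ℤ) ∣ γ 1 1 - 1

theorem det_eq (γ : SL(2, ℤ)) : γ 0 0 * γ 1 1 - γ 0 1 * γ 1 0 = 1 := by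
  have := γ.det_coe
  rwa [Matrix.det_fin_two] at this

theorem InP.cls {M : ℕ} {γ : SL(2, ℤ)} (h : InP M γ) : Cls M 1 1 (γ : M2) := by
  obtain ⟨h10, h01, h11⟩ := h
  refine ⟨h10, h01, ?_, h11⟩
  have hdet := det_eq γ
  obtain ⟨x, hx⟩ := h10
  obtain ⟨y, hy⟩ := h11
  exact ⟨-(γ 0 0 * y) + γ 0 1 * x, by linear_combination hdet + γ 0 1 * hx - γ 0 0 * hy⟩

theorem cast_iff (m : ℕ) (x a : ℤ) : (x : ZMod m) = (a : ZMod m) ↔ (m : ℤ) ∣ x - a := by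
  rw [← ZMod.intCast_zmod_eq_zero_iff_dvd, Int.cast_sub, sub_eq_zero]

theorem inP_zero {γ : SL(2, ℤ)} : InP 0 γ ↔ γ ∈ Gamma1 3 := by
  have e : ((3 * 2 ^ 0 : ℕ) : ℤ) = ((3 : ℕ) : ℤ) := by norm_num
  rw [Gamma1_mem]
  constructor
  · intro h
    have hc := h.cls
    have h0 := (cast_iff 3 _ _).2 (e ▸ hc.h00)
    have h1 := (cast_iff 3 _ _).2 (e ▸ hc.h11)
    rw [Int.cast_one] at h0 h1
    exact ⟨h0, h1, (ZMod.intCast_zmod_eq_zero_iff_dvd _ _).2 (e ▸ hc.h10)⟩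
  · rintro ⟨_, h11, h10⟩
    refine ⟨?_, by simp, ?_⟩
    · rw [e, ← ZMod.intCast_zmod_eq_zero_iff_dvd]
      exact h10
    · rw [e]
      exact (cast_iff 3 _ _).1 (by rw [h11, Int.cast_one])

theorem InP.mono {M : ℕ} {γ : SL(2, ℤ)} (h : InP M γ) : InP 0 γ :=
  ⟨h.cls.mono.h10, h.cls.mono.h01, h.cls.mono.h11⟩

theorem InP.mem {M : ℕ} {γ : SL(2, ℤ)} (h : InP M γ) : γ ∈ Gamma1 3 := inP_zero.1 h.mono

/-- a system of representatives for `Γ₁(3)` -/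
theorem rep_of {ι : Type*} {α : ι → M2} {a d D : ℤ} (hα : ∀ i, Cls 0 a d (α i))
    (hdet : ∀ i, (α i).det = D) (hD : D ≠ 0) (ha : IsCoprime ((3 * 2 ^ 0 : ℕ) : ℤ) a)
    (hd : IsCoprime ((3 * 2 ^ 0 : ℕ) : ℤ) d)
    (fac : ∀ ω : M2, ω.det = D → ∃ i ω', ω = ω' * α i)
    (inj : ∀ i j, ∀ ω ω' : M2, ω.det = 1 → ω'.det = 1 → ω * α i = ω' * α j → i = j) :
    Rep (rho (Gamma1 3)) α where
  ex i γ := by
    obtain ⟨j, ω', hω⟩ := fac (α i * ((γ : SL(2, ℤ)) : M2)) (by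
      rw [Matrix.det_mul, hdet i, Matrix.SpecialLinearGroup.det_coe, mul_one])
    have hd1 : ω'.det = 1 := by
      have := congrArg Matrix.det hω
      rw [Matrix.det_mul, Matrix.det_mul, hdet, hdet, Matrix.SpecialLinearGroup.det_coe,
        mul_one] at this
      exact (mul_right_cancel₀ hD (by rw [one_mul]; exact this)).symm
    have hc : Cls 0 a d (α i * ((γ : SL(2, ℤ)) : M2)) := by
      have := (hα i).mul (inP_zero.2 γ.2).cls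
      rwa [mul_one, mul_one] at this
    exact ⟨j, ⟨⟨ω', hd1⟩, inP_zero.1 (hc.cancel (hα j) ha hd hω)⟩, hω⟩
  inj i j γ γ' e := by
    have hij : i = j := inj i j _ _ (by rw [rho_apply, Matrix.SpecialLinearGroup.det_coe])
      (by rw [rho_apply, Matrix.SpecialLinearGroup.det_coe]) e
    subst hij
    refine ⟨rfl, ?_⟩
    have h1 : ((γ : SL(2, ℤ)) : M2) = ((γ' : SL(2, ℤ)) : M2) :=
      cancel_right (by rw [hdet]; exact hD) e
    exact Subtype.ext (Subtype.ext h1)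

/-- two families of the same class are equivalent under `Γ₁(3)` -/
theorem equiv_of {ι : Type*} {α : ι → M2} {a d D : ℤ} (hα : ∀ i, Cls 0 a d (α i))
    (hdet : ∀ i, (α i).det = D) (hD : D ≠ 0) (ha : IsCoprime ((3 * 2 ^ 0 : ℕ) : ℤ) a)
    (hd : IsCoprime ((3 * 2 ^ 0 : ℕ) : ℤ) d)
    (fac : ∀ ω : M2, ω.det = D → ∃ i ω', ω = ω' * α i) {B : M2} (hB : Cls 0 a d B)
    (hBd : B.det = D) : ∃ i, ∃ δ : Gamma1 3, B = rho (Gamma1 3) δ * α i := by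
  obtain ⟨i, ω', hω⟩ := fac B hBd
  have hd1 : ω'.det = 1 := by
    have := congrArg Matrix.det hω
    rw [Matrix.det_mul, hdet, hBd] at this
    exact (mul_right_cancel₀ hD (by rw [one_mul]; exact this)).symm
  exact ⟨i, ⟨⟨ω', hd1⟩, inP_zero.1 (hB.cancel (hα i) ha hd hω)⟩, hω⟩

/-- the elements `γ_i` for `γ ∈ Γ₁(3) ∩ Γ(2^M)` -/
theorem el_inP {ι : Type*} {α : ι → M2} {M : ℕ} {a d : ℤ} (h : Rep (rho (Gamma1 3)) α)
    (hα : ∀ i, Cls M a d (α i)) (ha : IsCoprime ((3 * 2 ^ M : ℕ) : ℤ) a)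
    (hd : IsCoprime ((3 * 2 ^ M : ℕ) : ℤ) d) (γ : Gamma1 3) (hγ : InP M γ) (i : ι) :
    InP M (h.el γ i) := by
  have hc : Cls M a d (α i * ((γ : SL(2, ℤ)) : M2)) := by
    have := (hα i).mul hγ.cls
    rwa [mul_one, mul_one] at this
  exact hc.cancel (hα _) ha hd (h.eq γ i)

/-! ## The families `alp M ℓ δ` and `δ` -/

theorem del_cls {M : ℕ} {a : ℤ} {δ : SL(2, ℤ)} (h : IsDel 3 M a δ) :
    ((3 * 2 ^ M : ℕ) : ℤ) ∣ a * δ 0 0 - 1 := by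
  obtain ⟨⟨x, hx⟩, _, ⟨y, hy⟩⟩ := h
  have hdet := det_eq δ
  exact ⟨-(δ 0 0 * y) + δ 0 1 * x, by linear_combination hdet + δ 0 1 * hx - δ 0 0 * hy⟩

theorem cls_alp {M ℓ : ℕ} {δ : SL(2, ℤ)} (hδ : IsDel 3 M ℓ δ) (i : Option (Fin ℓ)) :
    Cls M 1 ℓ (alp M ℓ δ i) := by
  cases i with
  | some j =>
    constructor <;> simp [alp]
  | none =>
    have e : alp M ℓ δ none = !![δ 0 0 * ℓ, δ 0 1; δ 1 0 * ℓ, δ 1 1] := by
      rw [alp]
      ext i j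
      fin_cases i <;> fin_cases j <;> simp [Matrix.mul_apply, Fin.sum_univ_two]
    rw [e]
    constructor
    · exact Dvd.dvd.mul_right hδ.1 _
    · exact hδ.2.1
    · have := del_cls hδ
      rw [mul_comm (ℓ : ℤ)] at this
      exact this
    · exact hδ.2.2

theorem det_alp (M ℓ : ℕ) (δ : SL(2, ℤ)) (i : Option (Fin ℓ)) : (alp M ℓ δ i).det = ℓ := by
  cases i with
  | none => simp [alp, Matrix.det_fin_two]
  | some j => simp [alp, Matrix.det_fin_two]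

theorem alp_eq_al (M ℓ : ℕ) (δ : SL(2, ℤ)) : alp M ℓ δ = al (2 ^ M) ℓ δ := by
  funext i
  cases i <;> rfl

theorem fam_alp {M ℓ : ℕ} (hℓ : Good 3 ℓ) {δ : SL(2, ℤ)} (hδ : IsDel 3 M ℓ δ) :
    Fam (2 ^ M) !![1, 0; 0, (ℓ : ℤ)] (alp M ℓ δ) := by
  rw [alp_eq_al]
  have h2 : ¬ ℓ ∣ 2 := fun h => hℓ.2 (Dvd.dvd.mul_right h 3)
  refine fam_al (2 ^ M) ℓ hℓ.1 (fun h => h2 (hℓ.1.dvd_of_dvd_pow h)) δ ?_ ?_ ?_ ?_
  · have := (dvd3 M).trans (del_cls hδ)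
    rw [← ZMod.intCast_zmod_eq_zero_iff_dvd] at this
    push_cast at this ⊢
    exact sub_eq_zero.1 this
  · exact (ZMod.intCast_zmod_eq_zero_iff_dvd _ _).2 ((dvd3 M).trans hδ.1)
  · exact (ZMod.intCast_zmod_eq_zero_iff_dvd _ _).2 hδ.2.1
  · have := (dvd3 M).trans hδ.2.2
    rw [← ZMod.intCast_zmod_eq_zero_iff_dvd] at this
    push_cast at this ⊢
    exact sub_eq_zero.1 this

theorem cop_good {ℓ : ℕ} (hℓ : Good 3 ℓ) (M : ℕ) : IsCoprime ((3 * 2 ^ M : ℕ) : ℤ) (ℓ : ℤ) := by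
  rw [Nat.isCoprime_iff_coprime]
  have h2 : ¬ ℓ ∣ 2 := fun h => hℓ.2 (Dvd.dvd.mul_right h 3)
  have h3 : ¬ ℓ ∣ 3 := fun h => hℓ.2 (Dvd.dvd.mul_left h 2)
  exact Nat.Coprime.mul_left ((Nat.Prime.coprime_iff_not_dvd hℓ.1).2 h3).symm
    (((Nat.Prime.coprime_iff_not_dvd hℓ.1).2 h2).symm.pow_left M)

theorem fac_alp {M ℓ : ℕ} (hℓ : Good 3 ℓ) {δ : SL(2, ℤ)} (hδ : IsDel 3 M ℓ δ) (ω : M2)
    (hω : ω.det = ℓ) : ∃ i ω', ω = ω' * alp M ℓ δ i :=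
  (fam_alp hℓ hδ).fac ω (by simp [Matrix.det_fin_two, hω])

/-- the representatives `alp M ℓ δ` for `Γ₁(3)`, any `M` -/
theorem rep3 {M ℓ : ℕ} (hℓ : Good 3 ℓ) {δ : SL(2, ℤ)} (hδ : IsDel 3 M ℓ δ) :
    Rep (rho (Gamma1 3)) (alp M ℓ δ) :=
  rep_of (fun i => (cls_alp hδ i).mono) (det_alp M ℓ δ) (by exact_mod_cast hℓ.1.ne_zero)
    isCoprime_one_right (cop_good hℓ 0) (fac_alp hℓ hδ)
    (fun i j ω ω' h1 _ e => (fam_alp hℓ hδ).inj i j ω ω' e (by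
      rw [h1]; exact isCoprime_one_left))

theorem equiv3 {M M' ℓ : ℕ} (hℓ : Good 3 ℓ) {δ δ' : SL(2, ℤ)} (hδ : IsDel 3 M ℓ δ)
    (hδ' : IsDel 3 M' ℓ δ') (k : Option (Fin ℓ)) :
    ∃ i, ∃ η : Gamma1 3, alp M' ℓ δ' k = rho (Gamma1 3) η * alp M ℓ δ i :=
  equiv_of (fun i => (cls_alp hδ i).mono) (det_alp M ℓ δ) (by exact_mod_cast hℓ.1.ne_zero)
    isCoprime_one_right (cop_good hℓ 0) (fac_alp hℓ hδ) (cls_alp hδ' k).mono (det_alp M' ℓ δ' k)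

theorem cls_del {M : ℕ} {a : ℤ} {δ : SL(2, ℤ)} (h : IsDel 3 M a δ) :
    Cls M (δ 0 0) a (δ : M2) :=
  ⟨h.1, h.2.1, by simp, h.2.2⟩

theorem cop_del {M : ℕ} {a : ℤ} {δ : SL(2, ℤ)} (h : IsDel 3 M a δ) :
    IsCoprime ((3 * 2 ^ M : ℕ) : ℤ) (δ 0 0) ∧ IsCoprime ((3 * 2 ^ M : ℕ) : ℤ) a := by
  obtain ⟨x, hx⟩ := del_cls h
  exact ⟨⟨-x, a, by linear_combination hx⟩, ⟨-x, δ 0 0, by linear_combination hx⟩⟩

/-- one matrix `δ` with `IsDel 3 M a δ`, for `Γ₁(3)` -/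
theorem repD {M : ℕ} {a : ℤ} {δ : SL(2, ℤ)} (h : IsDel 3 M a δ) :
    Rep (rho (Gamma1 3)) (fun _ : Unit => (δ : M2)) :=
  rep_of (D := 1) (fun _ => (cls_del h).mono) (fun _ => δ.det_coe) one_ne_zero
    (IsCoprime.of_isCoprime_of_dvd_left (cop_del h).1 (by
      exact_mod_cast Nat.mul_dvd_mul_left 3 (pow_dvd_pow 2 (Nat.zero_le M))))
    (IsCoprime.of_isCoprime_of_dvd_left (cop_del h).2 (by
      exact_mod_cast Nat.mul_dvd_mul_left 3 (pow_dvd_pow 2 (Nat.zero_le M))))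
    (fun ω _ => ⟨(), ω * ((δ⁻¹ : SL(2, ℤ)) : M2), by
      rw [mul_assoc, ← Matrix.SpecialLinearGroup.coe_mul, inv_mul_cancel,
        Matrix.SpecialLinearGroup.coe_one, mul_one]⟩)
    (fun _ _ _ _ _ _ _ => rfl)

theorem equivD {M M' : ℕ} {a : ℤ} {δ δ' : SL(2, ℤ)} (h : IsDel 3 M a δ) (h' : IsDel 3 M' a δ') :
    ∃ η : Gamma1 3, (δ' : M2) = rho (Gamma1 3) η * (δ : M2) := by
  have h3 : ∀ {M : ℕ}, ((3 * 2 ^ 0 : ℕ) : ℤ) ∣ ((3 * 2 ^ M : ℕ) : ℤ) := fun {M} => by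
    exact_mod_cast Nat.mul_dvd_mul_left 3 (pow_dvd_pow 2 (Nat.zero_le M))
  refine ⟨⟨δ' * δ⁻¹, ?_⟩, ?_⟩
  · rw [← inP_zero]
    have e : ((δ' : SL(2, ℤ)) : M2) = ((δ' * δ⁻¹ : SL(2, ℤ)) : M2) * (δ : M2) := by
      rw [← Matrix.SpecialLinearGroup.coe_mul, inv_mul_cancel_right]
    have c1 := (cls_del h).mono
    have c2 : Cls 0 (δ 0 0) a (δ' : M2) := by
      refine ⟨h3.trans h'.1, by simp, ?_, h3.trans h'.2.2⟩
      obtain ⟨x, hx⟩ := h3.trans (del_cls h)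
      obtain ⟨y, hy⟩ := h3.trans (del_cls h')
      exact ⟨δ 0 0 * y - δ' 0 0 * x, by linear_combination δ 0 0 * hy - δ' 0 0 * hx⟩
    exact c2.cancel c1 (IsCoprime.of_isCoprime_of_dvd_left (cop_del h).1 h3)
      (IsCoprime.of_isCoprime_of_dvd_left (cop_del h).2 h3) e
  · rw [rho_apply, ← Matrix.SpecialLinearGroup.coe_mul, inv_mul_cancel_right]

end Vale.Agent.P022.H420.L3
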